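import Vale.Agent.P281Z.Lg.Mk
import Vale.Agent.P281Z.Pk.Rl
import Vale.Agent.P281Z.Sc.Bd

/-!
# P281Z, block LG, row B3V: extension of logarithmic sections from a hypersurface
-/

open scoped Manifold ContDiff Topology ComplexOrder
open Filter Set Function
open Vale.Agent.P272.K Vale.Agent.P285.H281.FD Vale.Agent.P281Z.Ha
open Vale.Agent.P277Z (Hol at_chart)
open Vale.Agent.P277Z.Slc (Ind LEq Snc St dd_mul dd_congr)
open Vale.Agent.P277.HD (pull)
open Vale.Agent.P281Z.Pk.Mg (jd_mul jd_ne)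

noncomputable section

namespace Vale.Agent.P281Z.Lg

namespace B3v

variable {n : ℕ} {V : Mf n} {κ : Type} {D : κ → Set V.X} {F : Bd V.X} {x : V.X}

theorem snc_any (h : Snc n D) {ζ : κ → V.X → ℂ} (hζ : ∀ l, LEq n (D l) x (ζ l)) :
    Ind n (fun l : {l // x ∈ D l} => ζ l) x := by
  obtain ⟨ξ, h1, h2⟩ := h x
  choose w w1 w2 w3 using fun l => leq_unit (h1 l) (hζ l)
  refine ⟨fun l => (hζ l).hol, fun e he => ?_⟩
  have k := (h2.2 e he).units_smul fun l => Units.mk0 _ (w2 l)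
  refine (congrArg (fun v => LinearIndependent ℂ v) (funext fun l => ?_)).mp k
  exact ((dd_congr (w3 l) he).trans (dd_mul (w1 l) (h1 l).hol ((h1 l).mem.2 l.2) he)).symm

theorem trv_empty (h : Snc n D) (x : V.X) : Trv D (fun a : Empty => a.elim) x := fun ζ hζ =>
  ind_congr ((snc_any h hζ).comp (Sum.elim id fun a : Empty => a.elim) (by
    rintro (a | a) (b | b) e
    exacts [congrArg _ e, b.elim, a.elim, a.elim])) (by
    rintro (a | a)
    exacts [.of_forall fun _ => rfl, a.elim])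

theorem zp_ne [Fintype κ] (c : Ac V D F) (h : x ∈ c.ch.source) (hx : x ∈ off D) : c.zp x ≠ 0 :=
  Finset.prod_ne_zero_iff.2 fun l _ => by
    cases q : c.la l with
    | none => exact one_ne_zero
    | some k => exact fun e => hx l ((c.eqn l x h).2 ⟨k, q, e⟩)

theorem nm_chg [Fintype κ] (hF : IsLB n F) {B Z : Type} {ac : B → Ac V D F} {i : Z → V.X}
    {b : B → Z → ℂ} {s : Chart n V.X × F.ι → Z → ℂ} (h : Nm ac i univ b s) {β β' : B} {y : Z}
    (o : i y ∈ off D) (p : i y ∈ (ac β).ch.source) (p' : i y ∈ (ac β').ch.source) {G : ℂ}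
    (f : G * (ac β').zp (i y) = (jacM (ac β).ch (ac β').ch (i y)).det *
      F.g (ac β).fr (ac β').fr (i y) * (ac β).zp (i y)) : b β y = G * b β' y := by
  have he := at_chart (n := n) (i y)
  have g := (ac β').sub p'
  rw [h β _ _ y trivial o p he g, h β' _ _ y trivial o p' he g,
    jd_mul (ac β).co (ac β').co (co_chart he.1) p p' he.2, lb_self hF g, ← mul_assoc G,
    ← mul_assoc G, f]
  ring

/-- the hyperplane `z k = z₀ k` is not contained in the divisor -/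
theorem freq (c : Ac V D F) {k : Fin n} (hk : ∀ l, c.la l ≠ some k) :
    ∃ᶠ y in 𝓝 c.ctr, y ∈ off D ∧ y ∈ c.ch.source ∧ c.ch y k = c.ch c.ctr k := by
  have t : Tendsto (fun s : ℂ => c.ch c.ctr + s • (update 1 k 0 : Cm n)) (𝓝[≠] 0)
      (𝓝 (c.ch c.ctr)) :=
    tendsto_nhdsWithin_of_tendsto_nhds (Continuous.tendsto' (by fun_prop) _ _ (by simp))
  refine ((c.ch.tendsto_symm c.ctr_mem).comp t).frequently (Eventually.frequently ?_)
  filter_upwards [t.eventually (c.ch.open_target.mem_nhds (c.ch.map_source c.ctr_mem)),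
    self_mem_nhdsWithin] with s a b
  refine ⟨fun l hl => ?_, c.ch.map_target a, by simp [c.ch.right_inv a]⟩
  obtain ⟨j, e, e'⟩ := (c.eqn l _ (c.ch.map_target a)).1 hl
  have q : j ≠ k := fun q => hk l (q ▸ e)
  rw [c.ch.right_inv a] at e'
  simp only [Pi.add_apply, c.ctr_z l j e, Pi.smul_apply, update_of_ne q, Pi.one_apply, smul_eq_mul,
    mul_one, zero_add] at e'
  exact b e'

/-- the data of a chart which is adapted to `D` and to the hypersurface -/
structure Ah (D : κ → Set V.X) (F A : Bd V.X) (s : A.ι → V.X → ℂ) : Type where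
  c : Ac V D F
  a : A.ι
  o : Option (Fin n)
  sub : c.ch.source ⊆ A.U a
  hon : ∀ k, o = some k → (∀ l, c.la l ≠ some k) ∧ ∀ x ∈ c.ch.source, s a x = c.ch x k
  out : o = none → ∀ x ∈ c.ch.source, s a x ≠ 0

theorem ex_ah [Fintype κ] (hA : StAa) (hD : Snc n D) (hF : IsLB n F) {A : Bd V.X}
    {s : A.ι → V.X → ℂ} (h1 : IsLB n A) (hs : IsSec n A s)
    (ht : ∀ a, ∀ x ∈ A.U a, s a x = 0 → Trv D (fun _ : Unit => s a) x) (x : V.X) :
    ∃ β : Ah D F A s, β.c.ctr = x := by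
  obtain ⟨a, ha⟩ := h1.cover x
  by_cases h0 : s a x = 0
  · obtain ⟨c, j, c1, c2, -, c4, c5⟩ := hA n V κ D F hF hD x Unit _ (ht a x ha h0) _ (lb_near h1 ha)
    refine ⟨⟨c, a, some (j ()), c2, ?_, nofun⟩, c1⟩
    rintro _ ⟨rfl⟩
    exact ⟨c4 (), fun y hy => (c5 y hy ()).symm⟩
  · obtain ⟨c, -, c1, c2, -⟩ := hA n V κ D F hF hD x Empty _ (trv_empty hD x) _
      ((lb_near h1 ha).and ((sec_hol hs ha).ne_near h0))
    exact ⟨⟨c, a, none, fun y hy => (c2 hy).1, nofun, fun _ y hy => (c2 hy).2⟩, c1⟩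

end B3v

open B3v

/-- row B3V -/
theorem stB3V (hA : StAa) (hL : StLad) (hH : StHyp) (hT : StTrv) (h3 : StB3) : StB3V := by
  intro n V Z κ _ D F A ψ τ s i hK hD hF h1 hψ hτ sp dm hs ht hi u hu
  classical
  let : LinearOrder κ := LinearOrder.lift' _ (Fintype.equivFin κ).injective
  have ex := ex_ah hA hD hF h1 hs ht
  have zi : ∀ a x, x ∈ A.U a → (s a x = 0 ↔ ∃ y, i y = x) := fun a x h => by
    rw [← mem_range, hi.rng, mem_ofPred_eq, nz_iff h1 (fun a b => hs.change a b x) h, not_not]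
  have dn : Dense (i ⁻¹' off D) := fun y => by
    obtain ⟨β, e⟩ := ex (i y)
    have m := β.c.ctr_mem
    have z := (zi _ _ (β.sub m)).2 ⟨y, e.symm⟩
    cases q : β.o with
    | none => exact (β.out q _ m z).elim
    | some k =>
      have f := freq β.c (β.hon k q).1
      rw [mem_closure_iff_frequently]
      intro w
      rw [hi.ev, ← e] at w
      obtain ⟨x, ⟨a, b, c⟩, d⟩ := (f.and_eventually w).exists
      obtain ⟨y', rfl⟩ := (zi _ _ (β.sub b)).1 (((β.hon k q).2 _ b).trans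
        (c.trans (((β.hon k q).2 _ m).symm.trans z)))
      exact d y' rfl a
  obtain ⟨L, θ, ⟨M⟩⟩ := hL _ V κ D F hF ψ (Ah D F A s) (·.c) hK hψ fun x =>
    (ex x).elim fun β e => ⟨β, e ▸ β.c.ctr_mem⟩
  obtain ⟨H, -, hσ, hd, ⟨M'⟩⟩ := hH _ V κ D F hF ψ L _ M A τ s (fun β => (θ β).a)
    (fun β => (θ β).sub) (fun β => (θ β).o) h1 hτ hs (fun β => (θ β).hon) fun β => (θ β).out
  have h2 := lb_mul hF h1
  obtain ⟨t1, t2⟩ := hT _ V κ D _ h2 L.B _ M'.cover
  obtain ⟨b₀, b1, b2⟩ := (t1 n Z i univ hi.hol dn isOpen_univ).1 u hu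
  have hz : ∀ x, x ∈ H.Z → ∃ y, i y = x := fun x ⟨β, a, b⟩ =>
    (zi _ x ((θ β).sub (M.U_eq β ▸ a))).1 (hσ β ▸ b)
  obtain ⟨b, s1, s2⟩ := h3 κ V.X _ L H (M.psd sp) (hd dm) (fun β => extend i (b₀ β) 0)
    (fun m => ⟨fun β β' x a h h' => by
      obtain ⟨y, rfl⟩ := hz x a.1
      have k := M'.U_eq β ▸ h
      have k' := M'.U_eq β' ▸ h'
      simp only [hi.inj.extend_apply]
      refine tendsto_nhds_unique_of_frequently_eq (b1 β y trivial k).cont
        ((hi.hol.hol (M'.G_hol β β' _ h h')).cont.mul (b1 β' y trivial k').cont) ?_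
      refine ((mem_closure_iff_frequently.1 (dn y)).and_eventually (hi.hol.cont.continuousAt.eventually
        (inter_mem ((θ β).c.ch.open_source.mem_nhds k)
          ((θ β').c.ch.open_source.mem_nhds k')))).mono fun y' ⟨o, p, p'⟩ => ?_
      exact nm_chg h2 b2 o p p' (M'.G_eq β β' _ ((M'.U_eq β).symm ▸ p) ((M'.U_eq β').symm ▸ p')),
    fun c z hz' h0 => by
      have a := ((L.K m).e c).map_target hz'
      have p := (M.src m c _).1 a
      have zz : ∀ z' ∈ ((L.K m).e c).target, (H.T m).σ c z' = 0 →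
          ∃ y, i y = L.pt (((L.K m).e c).symm z') := fun z' h e => hz _ ⟨_, L.mem m c _
        (((L.K m).e c).map_target h), by
          rw [← H.σ_eq m c _ (((L.K m).e c).map_target h), ((L.K m).e c).right_inv h, e]⟩
      obtain ⟨y, e⟩ := zz z hz' h0
      obtain ⟨q, q1, q2⟩ := (hi.imm y).ext (hi.hol.at y) (b1 (L.bs c) y trivial (e ▸ p.2))
      rw [e] at q1
      refine ⟨fun z => q (L.pt (((L.K m).e c).symm z)), ((L.K m).e c).right_inv hz' ▸
        (M.pt_hol m).hol q1 _ ⟨(L.atl m _).2 ⟨c, rfl⟩, a⟩, ?_⟩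
      rw [hi.ev, e] at q2
      filter_upwards [(((M.pt_hol m).cont.continuousAt).comp
        (((L.K m).e c).continuousAt_symm hz')).eventually q2,
        ((L.K m).e c).open_target.mem_nhds hz'] with z' r r' r''
      obtain ⟨y', e'⟩ := zz z' r' r''
      rw [Lad.nm, ← e', hi.inj.extend_apply, r y' e']⟩) (n + 1)
  obtain ⟨c1, c2⟩ := (t2 _ H.lad _ M' b).1 s1
  obtain ⟨u', d1, d2⟩ := (t1 _ V id univ holM_id (snc_dense_off hD) isOpen_univ).2 b
    (fun β y _ h => c1 β y ((M'.U_eq β).symm ▸ h)) fun β β' y _ _ h h' => by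
      have k := (M'.U_eq β).symm ▸ h
      have k' := (M'.U_eq β').symm ▸ h'
      rw [c2 β β' y trivial k k', mul_right_comm, id, M'.G_eq β β' y k k']
  refine ⟨u', d1, fun a y o h => ?_⟩
  obtain ⟨β, p⟩ := M'.cover (i y)
  obtain ⟨y', r, -⟩ := M.surj (n + 1) ∅ (zero_add _) (i y) nofun
  have k := (M.U_eq β).symm ▸ p
  have f := s2 β (i y) ⟨⟨β, k, hσ β ▸ (zi _ _ ((θ β).sub p)).2 ⟨y, rfl⟩⟩, y', r⟩ k
  simp only [hi.inj.extend_apply] at f
  rw [d2 β a.1 a.2 (i y) trivial o p h.1 h.2, b2 β a.1 a.2 y trivial o p h.1 h.2] at f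
  exact mul_left_cancel₀ (mul_ne_zero (zp_ne _ p o) (mul_ne_zero
    (jd_ne (θ β).c.co (co_chart h.1.1) p h.1.2)
    (h2.ne_zero _ _ _ (((θ β).c.tw _ (θ β).sub).sub p) h.2))) f

end Vale.Agent.P281Z.Lg
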