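import Vale.Agent.P281Z.Lg.All
import Vale.Agent.P281Z.Lg.B3v
import Vale.Agent.P281Z.Ld.Lad
import Vale.Agent.P281Z.La.Aa
import Vale.Agent.P281Z.La.Hyp
import Vale.Agent.P281Z.La.Trv

/-!
# P281Z, block LG: extension of logarithmic sections from a hypersurface
-/

namespace Vale.Agent.P281Z.Lg

theorem b3v : StB3V := stB3V stAa stLad stHyp stTrv b3

end Vale.Agent.P281Z.Lg
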