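import Vale.Agent.P281Z.Lg.Defs
import Vale.Agent.P281Z.Mf.Adapt
import Vale.Agent.P281Z.Mf.Adj

/-!
# P281Z, block LG: the strata of a divisor with simple normal crossings on a compact manifold
-/

open scoped Manifold ContDiff Topology ComplexOrder
open Filter Set Function
open Vale.Agent.P272.K Vale.Agent.P285.H281.FD Vale.Agent.P281Z.Ha
open Vale.Agent.P277Z (Hol)
open Vale.Agent.P277Z.Slc (Ind LEq Snc St)
open Vale.Agent.P277.HD (pull)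

noncomputable section

namespace Vale.Agent.P281Z.Lg

section

variable {n : ℕ} (V : Mf n) {κ : Type} (D : κ → Set V.X) (F : Bd V.X)

/-- an adapted chart, with a frame of `F` -/
structure Ac : Type where
  ch : Chart n V.X
  fr : F.ι
  la : κ → Option (Fin n)
  ctr : V.X
  co : Co n ch
  sub : ch.source ⊆ F.U fr
  inj : ∀ l l' k, la l = some k → la l' = some k → l = l'
  eqn : ∀ l, ∀ x ∈ ch.source, x ∈ D l ↔ ∃ k, la l = some k ∧ ch x k = 0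
  ctr_mem : ctr ∈ ch.source
  ctr_z : ∀ l k, la l = some k → ch ctr k = 0

variable {V D F}

/-- the equation of the divisor -/
def Ac.zp [Fintype κ] (c : Ac V D F) (x : V.X) : ℂ := ∏ l, zt (c.la l) (c.ch x)

/-- the same chart, with a frame of `F + A` -/
@[reducible] def Ac.tw (c : Ac V D F) {A : Bd V.X} (a : A.ι) (h : c.ch.source ⊆ A.U a) :
    Ac V D (F.mul A) :=
  ⟨c.ch, (c.fr, a), c.la, c.ctr, c.co, fun _ hx => ⟨c.sub hx, h hx⟩, c.inj, c.eqn, c.ctr_mem,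
    c.ctr_z⟩

/-- the curvature is semipositive -/
def Spos (ψ : F.ι → V.X → ℝ) : Prop := ∀ i (e : Chart n V.X) x, At e x → x ∈ F.U i →
  (cHess (fun z => ψ i (e.symm z)) (e x)).PosSemidef

/-- the curvature of `τ` is dominated by the curvature of `ψ` -/
def Dm (ψ : F.ι → V.X → ℝ) {A : Bd V.X} (τ : A.ι → V.X → ℝ) : Prop :=
  ∃ C : ℝ, ∀ i a (e : Chart n V.X) x, At e x → x ∈ F.U i → x ∈ A.U a →
    ((C : ℂ) • cHess (fun z => ψ i (e.symm z)) (e x) -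
      cHess (fun z => τ a (e.symm z)) (e x)).PosSemidef

variable (D) in
/-- the functions `h a` are independent on all strata through `x` -/
def Trv {α : Type} (h : α → V.X → ℂ) (x : V.X) : Prop :=
  ∀ ζ : κ → V.X → ℂ, (∀ l, LEq n (D l) x (ζ l)) →
    Ind n (Sum.elim (fun l : {l // x ∈ D l} => ζ l) h) x

/-- `b` are the numerators of the section `s` of `i^* (K + F)` over `O` -/
def Nm [Fintype κ] {B Z : Type} (ac : B → Ac V D F) (i : Z → V.X) (O : Set Z) (b : B → Z → ℂ)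
    (s : Chart n V.X × F.ι → Z → ℂ) : Prop :=
  ∀ β e a, ∀ y ∈ O, i y ∈ off D → i y ∈ (ac β).ch.source → At e (i y) → i y ∈ F.U a →
    b β y = (ac β).zp (i y) * ((jacM (ac β).ch e (i y)).det * F.g (ac β).fr a (i y)) * s (e, a) y

/-- `L` is the system of the strata of `D`, for the adapted charts `ac` -/
structure Mk [Fintype κ] [LinearOrder κ] (L : Lad κ V.X n) (ac : L.B → Ac V D F)
    (ψ : F.ι → V.X → ℝ) where
  jx : ∀ {m}, (L.K m).I → Fin m → Fin n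
  lb : ∀ {m}, (L.K m).I → Finset κ
  cover : ∀ x, ∃ β, x ∈ (ac β).ch.source
  U_eq : ∀ β, L.U β = (ac β).ch.source
  G_eq : ∀ β β' x, x ∈ L.U β → x ∈ L.U β' → L.G β β' x * (ac β').zp x =
    (jacM (ac β).ch (ac β').ch x).det * F.g (ac β).fr (ac β').fr x * (ac β).zp x
  G_hol : ∀ β β' x, x ∈ L.U β → x ∈ L.U β' → Hol n (L.G β β') x
  pt_hol : ∀ m, HolM m n (L.pt (m := m))
  pt_imm : ∀ m y, Imm m n (L.pt (m := m)) y
  mem : ∀ m (y : (L.Y m).X), L.pt y ∈ St D (L.lab y)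
  surj : ∀ m (I : Finset κ), I.card + m = n → ∀ x ∈ St D I,
    ∃ y : (L.Y m).X, L.pt y = x ∧ L.lab y = I
  inj : ∀ m (y y' : (L.Y m).X), L.pt y = L.pt y' → L.lab y = L.lab y' → y = y'
  src : ∀ m (c : (L.K m).I) y,
    y ∈ ((L.K m).e c).source ↔ L.lab y = lb c ∧ L.pt y ∈ (ac (L.bs c)).ch.source
  tg : ∀ m (c : (L.K m).I) z,
    z ∈ ((L.K m).e c).target ↔ extend (jx c) z 0 ∈ (ac (L.bs c)).ch.target
  crd : ∀ m (c : (L.K m).I), ∀ y ∈ ((L.K m).e c).source,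
    (ac (L.bs c)).ch (L.pt y) = extend (jx c) ((L.K m).e c y) 0
  jx_inj : ∀ m (c : (L.K m).I), Injective (jx c)
  jx_rng : ∀ m (c : (L.K m).I) k, k ∈ range (jx c) ↔ ∀ l ∈ lb c, (ac (L.bs c)).la l ≠ some k
  lb_la : ∀ m (c : (L.K m).I), ∀ l ∈ lb c, (ac (L.bs c)).la l ≠ none
  co_eq : ∀ m (c : (L.K m).I) l k, L.co c l = some k ↔ (ac (L.bs c)).la l = some (jx c k)
  jx_sl : ∀ m (c : (L.K (m + 1)).I) i k (h : L.co c i = some k) k',
    jx (L.sl c h) k' = jx c (k.succAbove k')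
  lb_sl : ∀ m (c : (L.K (m + 1)).I) i k (h : L.co c i = some k), lb (L.sl c h) = insert i (lb c)
  ex : ∀ m β (y : (L.Y m).X), L.pt y ∈ L.U β → (∃ c, L.bs c = β ∧ y ∈ ((L.K m).e c).source) ∧
    ∀ j : Fin m → Fin n, Injective j → (∀ k, ∀ l ∈ L.lab y, (ac β).la l ≠ some (j k)) →
      ∃ c, L.bs c = β ∧ y ∈ ((L.K m).e c).source ∧ jx c = j
  a_eq : ∀ m (c c' : (L.K m).I) y, y ∈ ((L.K m).e c).source → y ∈ ((L.K m).e c').source →
    (L.K m).a c c' ((L.K m).e c y) = F.g (ac (L.bs c)).fr (ac (L.bs c')).fr (L.pt y)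
  φ_eq : ∀ m (c : (L.K m).I), ∀ y ∈ ((L.K m).e c).source,
    (L.K m).φ c ((L.K m).e c y) = ψ (ac (L.bs c)).fr (L.pt y)
  psd : Spos ψ → ∀ m, Psd (L.K m)

end

/-- A statement for all divisors and line bundles. -/
def ForV (P : ∀ (n : ℕ) (V : Mf n) (κ : Type) [Fintype κ], (κ → Set V.X) → Bd V.X → Prop) : Prop :=
  ∀ (n : ℕ) (V : Mf n) (κ : Type) [Fintype κ] (D : κ → Set V.X) (F : Bd V.X), IsLB n F →
    P n V κ D F

/-- (AA) adapted charts which contain given functions among the coordinates -/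
def StAa : Prop := ForV fun n V _ _ D F => Snc n D → ∀ (x : V.X) (α : Type) (h : α → V.X → ℂ),
  Trv D h x → ∀ W ∈ 𝓝 x, ∃ (c : Ac V D F) (j : α → Fin n), c.ctr = x ∧ c.ch.source ⊆ W ∧
    Injective j ∧ (∀ a l, c.la l ≠ some (j a)) ∧ ∀ y ∈ c.ch.source, ∀ a, c.ch y (j a) = h a y

/-- (LAD) the strata exist -/
def StLad : Prop := ForV fun n V κ _ D F => ∀ [LinearOrder κ] (ψ : F.ι → V.X → ℝ) (B : Type)
  (ac : B → Ac V D F), V.Kah → IsMet n F ψ → (∀ x, ∃ β, x ∈ (ac β).ch.source) →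
    ∃ (L : Lad κ V.X n) (θ : L.B ≃ B), Nonempty (Mk L (fun β => ac (θ β)) ψ)

/-- (HYP) the hypersurface `s = 0` -/
def StHyp : Prop := ForV fun n V κ _ D F => ∀ [LinearOrder κ] (ψ : F.ι → V.X → ℝ)
  (L : Lad κ V.X n) (ac : L.B → Ac V D F), Mk L ac ψ → ∀ (A : Bd V.X) (τ : A.ι → V.X → ℝ)
  (s : A.ι → V.X → ℂ) (fa : L.B → A.ι) (h : ∀ β, (ac β).ch.source ⊆ A.U (fa β))
  (hc : L.B → Option (Fin n)), IsLB n A → IsMet n A τ → IsSec n A s →
  (∀ β k, hc β = some k → (∀ l, (ac β).la l ≠ some k) ∧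
    ∀ x ∈ (ac β).ch.source, s (fa β) x = (ac β).ch x k) →
  (∀ β, hc β = none → ∀ x ∈ (ac β).ch.source, s (fa β) x ≠ 0) →
  ∃ H : L.Hy, (∀ β β', H.γ β β' = A.g (fa β) (fa β')) ∧ (∀ β, H.s β = s (fa β)) ∧
    (Dm ψ τ → ∀ m, (H.T m).Dom) ∧
    Nonempty (Mk H.lad (fun β => (ac β).tw (fa β) (h β)) fun a x => ψ a.1 x + τ a.2 x)

/-- (TRV) logarithmic sections and their numerators -/
def StTrv : Prop := ForV fun n V κ _ D F => ∀ (B : Type) (ac : B → Ac V D F),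
  (∀ x, ∃ β, x ∈ (ac β).ch.source) →
  (∀ (d : ℕ) (Z : Mf d) (i : Z.X → V.X) (O : Set Z.X), HolM d n i → Dense (i ⁻¹' off D) →
    IsOpen O → (∀ s, SecP d n i O (pull i ((Bd.can n V.X).mul F)) D (fun _ => 1) s →
      ∃ b, (∀ β, ∀ y ∈ O, i y ∈ (ac β).ch.source → Hol d (b β) y) ∧ Nm ac i O b s) ∧
    ∀ b : B → Z.X → ℂ, (∀ β, ∀ y ∈ O, i y ∈ (ac β).ch.source → Hol d (b β) y) →
      (∀ β β', ∀ y ∈ O, i y ∈ off D → i y ∈ (ac β).ch.source → i y ∈ (ac β').ch.source →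
        b β y * (ac β').zp (i y) = (jacM (ac β).ch (ac β').ch (i y)).det *
          F.g (ac β).fr (ac β').fr (i y) * (ac β).zp (i y) * b β' y) →
      ∃ s, SecP d n i O (pull i ((Bd.can n V.X).mul F)) D (fun _ => 1) s ∧ Nm ac i O b s) ∧
  ∀ [LinearOrder κ] (ψ : F.ι → V.X → ℝ) (L : Lad κ V.X n) (ac : L.B → Ac V D F), Mk L ac ψ →
    ∀ b, L.Sec n b ↔ (∀ β, ∀ x ∈ L.U β, Hol n (b β) x) ∧ L.Chg univ b

/-- (B3V) extension of logarithmic sections from a hypersurface -/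
def StB3V : Prop := ∀ (n : ℕ) (V : Mf (n + 1)) (Z : Mf n) (κ : Type) [Fintype κ] (D : κ → Set V.X)
  (F A : Bd V.X) (ψ : F.ι → V.X → ℝ) (τ : A.ι → V.X → ℝ) (s : A.ι → V.X → ℂ) (i : Z.X → V.X),
  V.Kah → Snc (n + 1) D → IsLB (n + 1) F → IsLB (n + 1) A → IsMet (n + 1) F ψ →
  IsMet (n + 1) A τ → Spos ψ → Dm ψ τ → IsSec (n + 1) A s →
  (∀ a, ∀ x ∈ A.U a, s a x = 0 → Trv D (fun _ : Unit => s a) x) →
  Emb n (n + 1) i {x | ¬ NZ A s x} → ∀ u,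
  SecP n (n + 1) i univ (pull i ((Bd.can (n + 1) V.X).mul (F.mul A))) D (fun _ => 1) u →
  ∃ u', SecP (n + 1) (n + 1) id univ ((Bd.can (n + 1) V.X).mul (F.mul A)) D (fun _ => 1) u' ∧
    ∀ a y, i y ∈ off D → i y ∈ ((Bd.can (n + 1) V.X).mul (F.mul A)).U a → u' a (i y) = u a y

/-- (ADJH) adjunction for a hypersurface -/
def StAdjH : Prop := ∀ (n : ℕ) (V : Mf (n + 1)) (Z : Mf n) (A : Bd V.X) (s : A.ι → V.X → ℂ)
  (i : Z.X → V.X), IsLB (n + 1) A → IsSec (n + 1) A s →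
  (∀ a, ∀ x ∈ A.U a, s a x = 0 → Ind (n + 1) (fun _ : Unit => s a) x) →
  Emb n (n + 1) i {x | ¬ NZ A s x} → LIso n (Bd.can n Z.X) (pull i ((Bd.can (n + 1) V.X).mul A))

end Vale.Agent.P281Z.Lg
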