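import Vale.Agent.P281Z.Ha.Fin

/-!
# P281Z, block LG: representation of conjugate linear functionals
-/

open scoped ComplexConjugate
open Set MeasureTheory Filter

noncomputable section

namespace Vale.Agent.P281Z.Lg.La

open Vale.Agent.P272.K Vale.Agent.P284.H608.K Vale.Agent.P281Z.Ha

/-- conjugate linear on `W` -/
structure Cj {E : Type} [AddCommGroup E] [Module ℂ E] (W : Submodule ℂ E) (ξ : E → ℂ) : Prop where
  add : ∀ a ∈ W, ∀ b ∈ W, ξ (a + b) = ξ a + ξ b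
  smul : ∀ (c : ℂ), ∀ a ∈ W, ξ (c • a) = conj c * ξ a

/-- a definite Hermitian form on `W` -/
structure Hf {E : Type} [AddCommGroup E] [Module ℂ E] (W : Submodule ℂ E) (h : E → E → ℂ) :
    Prop where
  cj : ∀ a ∈ W, Cj W (h a)
  symm : ∀ a ∈ W, ∀ b ∈ W, h a b = conj (h b a)
  dfn : ∀ a ∈ W, h a a = 0 → a = 0

section abs

variable {E : Type} [AddCommGroup E] [Module ℂ E] {W W' : Submodule ℂ E} {ξ ξ' : E → ℂ}
  {h : E → E → ℂ}

theorem Cj.mono (H : Cj W ξ) (l : W' ≤ W) : Cj W' ξ :=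
  ⟨fun a ha b hb => H.add a (l ha) b (l hb), fun c a ha => H.smul c a (l ha)⟩

theorem Cj.sub (H : Cj W ξ) (H' : Cj W ξ') : Cj W fun a => ξ a - ξ' a :=
  ⟨fun a ha b hb => by rw [H.add a ha b hb, H'.add a ha b hb]; ring,
    fun c a ha => by rw [H.smul c a ha, H'.smul c a ha]; ring⟩

theorem Hf.mono (H : Hf W h) (l : W' ≤ W) : Hf W' h :=
  ⟨fun a ha => (H.cj a (l ha)).mono l, fun a ha b hb => H.symm a (l ha) b (l hb),
    fun a ha => H.dfn a (l ha)⟩

/-- the linear functional `conj ξ` -/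
def Cj.lin (H : Cj W ξ) : W →ₗ[ℂ] ℂ where
  toFun a := conj (ξ a)
  map_add' a b := by rw [Submodule.coe_add, H.add _ a.2 _ b.2, map_add]
  map_smul' c a := by
    rw [Submodule.coe_smul, H.smul _ _ a.2, map_mul, Complex.conj_conj]
    rfl

theorem riesz [FiniteDimensional ℂ W] (H : Hf W h) (X : Cj W ξ) :
    ∃ w ∈ W, ∀ v ∈ W, ξ v = h w v := by
  let b := Module.finBasis ℂ W
  let T : W →ₗ[ℂ] Fin (Module.finrank ℂ W) → ℂ := LinearMap.pi fun j => (H.cj _ (b j).2).lin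
  have hT : ∀ a j, T a j = h a (b j) := fun a j => (H.symm _ a.2 _ (b j).2).symm
  have key : ∀ (a : W) {ζ : E → ℂ} (Z : Cj W ζ), T a = (fun j => ζ (b j)) →
      ∀ v ∈ W, ζ v = h a v := fun a ζ Z e v hv => by
    have k : Z.lin = (H.cj _ a.2).lin := b.ext fun j =>
      congrArg conj ((congrFun e j).symm.trans (hT a j))
    exact (starRingEnd ℂ).injective (LinearMap.congr_fun k ⟨v, hv⟩)
  have i : Function.Injective T := (injective_iff_map_eq_zero T).2 fun a e =>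
    Subtype.ext (H.dfn _ a.2 (key a (ζ := fun _ => 0)
      ⟨fun _ _ _ _ => (add_zero _).symm, fun _ _ _ => (mul_zero _).symm⟩ e _ a.2).symm)
  obtain ⟨a, e⟩ := (LinearMap.injective_iff_surjective_of_finrank_eq_finrank
    (Module.finrank_fin_fun ℂ).symm).1 i fun j => ξ (b j)
  exact ⟨a, a.2, key a X e⟩

/-- decomposition along a linear map `ρ` -/
theorem split {F : Type} [AddCommGroup F] [Module ℂ F] {A : Submodule ℂ F} {k : F → F → ℂ}
    [FiniteDimensional ℂ W] (H : Hf W h) (H' : Hf A k) (X : Cj W ξ) (ρ : E →ₗ[ℂ] F)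
    (hρ : ∀ g ∈ W, ρ g ∈ A) :
    ∃ w ∈ W, ρ w = 0 ∧ ∃ a ∈ A, ∀ v ∈ W, ξ v = h w v + k a (ρ v) := by
  have := Submodule.finiteDimensional_inf_left W (LinearMap.ker ρ)
  obtain ⟨w, ⟨hw, h0⟩, e⟩ := riesz (H.mono inf_le_left) (X.mono (W' := W ⊓ LinearMap.ker ρ)
    inf_le_left)
  have Y := X.sub (H.cj w hw)
  have u : ∀ a ∈ W, ∀ b ∈ W, ρ a = ρ b → ξ a - h w a = ξ b - h w b := fun a ha b hb r => by
    have c := W.sub_mem ha hb
    have d := Y.add _ c _ hb
    rw [sub_add_cancel, e (a - b) ⟨c, by rw [SetLike.mem_coe, LinearMap.mem_ker, map_sub, r,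
      sub_self]⟩, sub_self, zero_add] at d
    exact d
  have ex : ∀ f : F, ∃ c : ℂ, ∀ a ∈ W, ρ a = f → c = ξ a - h w a := fun f => by
    by_cases q : ∃ a ∈ W, ρ a = f
    · obtain ⟨a, ha, r⟩ := q
      exact ⟨_, fun b hb s => u a ha b hb (r.trans s.symm)⟩
    · exact ⟨0, fun b hb s => (q ⟨b, hb, s⟩).elim⟩
  choose ζ hζ using ex
  obtain ⟨a, ⟨a', ha', rfl⟩, s⟩ := riesz (W := W.map ρ) (ξ := ζ)
    (H'.mono (Submodule.map_le_iff_le_comap.2 hρ)) ⟨by
      rintro _ ⟨a, ha, rfl⟩ _ ⟨b, hb, rfl⟩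
      rw [hζ _ _ (W.add_mem ha hb) (map_add ρ a b), hζ _ a ha rfl, hζ _ b hb rfl]
      exact Y.add a ha b hb, by
      rintro c _ ⟨a, ha, rfl⟩
      rw [hζ _ _ (W.smul_mem c ha) (map_smul ρ c a), hζ _ a ha rfl]
      exact Y.smul c a ha⟩
  refine ⟨w, hw, h0, _, hρ a' ha', fun v hv => ?_⟩
  rw [← s _ ⟨v, hv, rfl⟩, hζ _ v hv rfl, add_sub_cancel]

theorem fin_of {s : Finset E} (hs : ∀ g ∈ W, g ∈ Submodule.span ℂ (s : Set E)) :
    FiniteDimensional ℂ W :=
  Submodule.finiteDimensional_of_le (S₂ := Submodule.span ℂ (s : Set E)) hs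

end abs

variable {n : ℕ} {M : Type} [TopologicalSpace M] [MeasurableSpace M] {K : KA n M}

open Rn

theorem cjS {f : Sc K} (hf : ∀ a, H0 K a → Integrable (dS K f a) K.μ) : Cj (H0s K) (pS K f) := by
  refine ⟨fun a ha b hb => ?_, fun c a _ => ?_⟩
  · rw [pS, pS, pS, ← integral_add (hf a ha) (hf b hb)]
    simp only [dS, Pi.add_apply, map_add, mul_add]
  · rw [pS, pS, ← integral_const_mul]
    simp only [dS, Pi.smul_apply, smul_eq_mul, map_mul, mul_left_comm (conj c)]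

theorem cjV (I : Int K) {u : Vc K} (h : Cov K u) (s : Sm K u) : Cj (Gs K) (pV K u) := by
  refine ⟨fun a ha b hb => ?_, fun c a _ => ?_⟩
  · rw [pV, pV, pV, ← integral_add (I.intV u a h ha.vec s (hl_sm ha.hol))
      (I.intV u b h hb.vec s (hl_sm hb.hol))]
    simp only [dV, Pi.add_apply, map_add, mul_add, Finset.sum_add_distrib]
  · rw [pV, pV, ← integral_const_mul]
    simp only [dV, Pi.smul_apply, smul_eq_mul, map_mul, mul_left_comm _ (conj c), ← Finset.mul_sum]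

theorem hfS (I : Int K) : Hf (H0s K) (pS K) :=
  ⟨fun a ha => cjS fun b hb => I.intS a b ha.top hb.top (hl_sm ha.hol) (hl_sm hb.hol),
    fun a _ b _ => I.conjS a b, fun a ha => I.posS a ha.top (hl_sm ha.hol)⟩

theorem hfV (I : Int K) : Hf (Gs K) fun g => pV K (fl K g) :=
  ⟨fun _ ha => cjV I (fl_cov ha.vec).1 ((fl_cov ha.vec).2.1 (hl_sm ha.hol)),
    fun a _ b _ => I.conjV a b, fun a ha => I.posV a ha.vec (hl_sm ha.hol)⟩

variable [T2Space M] [CompactSpace M] [BorelSpace M]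

theorem finS (h : StFin) : FiniteDimensional ℂ (H0s K) :=
  (h n M K).1.elim fun _ hs => fin_of hs.2

theorem finV (h : StFin) : FiniteDimensional ℂ (Gs K) :=
  (h n M K).2.elim fun _ hs => fin_of hs.2

end Vale.Agent.P281Z.Lg.La
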