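import Vale.Agent.P281Z.Lg.Bas
import Vale.Agent.P281Z.Lg.La

/-!
# P281Z, block LG: the obstruction to the extension from the strata of dimension `m`
-/

open scoped Manifold ContDiff Topology ComplexConjugate
open Filter Set MeasureTheory

noncomputable section

namespace Vale.Agent.P281Z.Lg

open Vale.Agent.P272.K Vale.Agent.P284.H608.K Vale.Agent.P281Z.Ha

namespace Lad

variable {κ V : Type} [Fintype κ] [LinearOrder κ] {n : ℕ} (L : Lad κ V n) {m : ℕ}

/-- the empty hypersurface -/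
def triv : L.Hy where
  T m :=
    { γ := fun _ _ _ => 1
      τ := fun _ _ => 0
      σ := fun _ _ => 1
      τsm := fun _ _ _ => contDiffAt_const
      γhol := fun _ _ _ _ _ => analyticAt_const
      coc := fun _ _ _ _ _ _ _ => (one_mul _).symm
      self := fun _ _ _ => rfl
      τch := fun _ _ _ _ _ => by simp
      σhol := fun _ _ _ => analyticAt_const
      σch := fun _ _ _ _ _ => (one_mul _).symm }
  γ _ _ _ := 1
  s _ _ := 1
  hc _ := none
  self _ _ _ := rfl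
  coc _ _ _ _ _ _ _ := (one_mul _).symm
  chg _ _ _ _ _ := (one_mul _).symm
  hol _ _ _ _ _ _ _ _ := analyticAt_const
  γ_eq _ _ _ _ _ _ := rfl
  σ_eq _ _ _ _ := rfl
  on _ _ _ h := nomatch h
  out _ _ _ _ _ := one_ne_zero
  sl_τ _ _ _ _ _ _ _ := rfl

theorem triv_Z {x : V} (h : x ∈ L.triv.Z) : False := h.elim fun _ h => one_ne_zero h.2

theorem val_nm (m : ℕ) (S : Set V) (b : L.B → V → ℂ) : L.Val (L.nm m b) S b :=
  fun c y hy _ => by rw [nm, ((L.K m).e c).left_inv hy]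

variable {L}

theorem Num.sub {f f' : Sc (L.K m)} (h : L.Num f) (h' : L.Num f') : L.Num (f - f') :=
  fun c c' y a b => by simp only [Pi.sub_apply, h c c' y a b, h' c c' y a b, mul_sub]

theorem Sec.sub {b b' : L.B → V → ℂ} (h : L.Sec m b) (h' : L.Sec m b') : L.Sec m (b - b') :=
  ⟨fun c z hz => (h.hol c z hz).sub (h'.hol c z hz), fun β β' x hx a a' => by
    simp only [Pi.sub_apply, h.chg β β' x hx a a', h'.chg β β' x hx a a', mul_sub]⟩

theorem nu_sm {a : Sc (L.K m)} (h : Sm _ a) : Sm _ (L.nu a) := fun c z hz =>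
  (contDiffAt_const.mul (an_sm (L.pr_an c z))).mul (h c z hz)

theorem dzb_nu {a : Sc (L.K m)} (h : Sm _ a) {c : (L.K m).I} {z : Cm m}
    (hz : z ∈ ((L.K m).e c).target) (j : Fin m) :
    dzb j (L.nu a c) z = L.ε c * L.pr c z * db _ a c z j := by
  rw [db_eq a hz]
  exact dzb_an_mul (analyticAt_const.mul (L.pr_an c z)) ((h c z hz).differentiableAt (by simp)) j

/-- `dp f` is the quotient almost everywhere -/
theorem pV_dp (hG : Gl L) {f : Sc (L.K m)} {x : Vc (L.K m)}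
    (h : ∀ c, ∀ z ∈ ((L.K m).e c).target, ∀ j, dzb j (f c) z = L.ε c * L.pr c z * x c z j)
    (g : Vc (L.K m)) : pV _ (L.dp f) g = pV _ x g := by
  refine integral_congr_ae ((hG.ae m).mono fun y hy => ?_)
  have h1 := ix_src (L.K m) y
  have h2 := ((L.K m).e _).map_source h1
  refine congrArg _ (Finset.sum_congr rfl fun j _ => congrArg (· * _) ?_)
  rw [dp, if_pos h2, h _ _ h2, div_eq_iff (hy _ h1)]
  linear_combination (L.pr _ _ * x _ _ j) * L.eps m ((L.K m).ix y)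

/-- a smooth lift of a section, its class and the residue formula -/
theorem lift0 (hG : Gl L) (hL : StLift) (hS : StRes) {b : L.B → V → ℂ} (hb : L.Sec m b) :
    ∃ (f : Sc (L.K (m + 1))) (x : Vc (L.K (m + 1))), L.Num f ∧ Sm _ f ∧ L.Val f (L.sk m) b ∧
      Cl _ x ∧ (∀ c, ∀ z ∈ ((L.K (m + 1)).e c).target, ∀ j,
        dzb j (f c) z = L.ε c * L.pr c z * x c z j) ∧ ∀ g, Vec _ g → Sm _ g → Dv _ g →
        pV _ x g = -Real.pi * pS _ (L.fm (L.nm m b)) (L.rs g) := by
  obtain ⟨f, x, h1, h2, h3, -, h4, h5⟩ := hL κ V n L L.triv m b 0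
    ⟨hb.hol, fun β β' y hy a a' => (hb.chg β β' y hy a a').trans (congrArg (· * _) (mul_one _).symm)⟩
    ⟨fun _ _ _ hy => (L.triv_Z hy.1).elim, fun _ _ _ h => (one_ne_zero h).elim⟩
    fun _ _ hy => (L.triv_Z hy.1).elim
  have h1' : L.Num f := fun c c' y a a' =>
    (h1 c c' y a a').trans (congrArg (· * _) (mul_one _))
  have h5' : ∀ c, ∀ z ∈ ((L.K (m + 1)).e c).target, ∀ j,
      dzb j (f c) z = L.ε c * L.pr c z * x c z j := fun c z hz j =>
    (h5 c z hz j).trans (congrArg (· * _) (mul_one _))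
  exact ⟨f, x, h1', h2, h3, h4, h5', fun g a a' a'' => (pV_dp hG h5' g).symm.trans
    (hS κ V n L m f b g h1' h2 (hG.num m b hb) (Rn.hl_sm hb.hol) h3 a a' a'')⟩

/-- a smooth lift whose class is exact can be corrected to a holomorphic one -/
theorem hl_sub_nu {f v : Sc (L.K m)} (hf : Sm _ f) (hv : Sm _ v)
    (h : ∀ c, ∀ z ∈ ((L.K m).e c).target, ∀ j,
      dzb j (f c) z = L.ε c * L.pr c z * db _ v c z j) : Hl _ (f - L.nu v) := by
  refine hol_of (fun c z hz => (hf c z hz).sub (nu_sm hv c z hz)) (funext₂ fun c z => ?_)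
  by_cases hz : z ∈ ((L.K m).e c).target
  · funext j
    rw [db_eq _ hz]
    exact (C2.dzb_sub j ((hf c z hz).differentiableAt (by simp))
      ((nu_sm hv c z hz).differentiableAt (by simp))).trans (by
        rw [h c z hz, dzb_nu hv hz, sub_self]
        rfl)
  · exact db_off _ hz

theorem val_sub_nu (hG : Gl L) {f : Sc (L.K (m + 1))} {b : L.B → V → ℂ}
    (h : L.Val f (L.sk m) b) (v : Sc (L.K (m + 1))) : L.Val (f - L.nu v) (L.sk m) b :=
  fun c y hy hy' => by
    rw [Pi.sub_apply, Pi.sub_apply, h c y hy hy', nu, (hG.bdry m c y hy).2 hy', mul_zero, zero_mul,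
      sub_zero]

end Lad

/-- (B1) -/
theorem stB1 (hO : Ha.Out) (hG : StGl) (hL : StLift) (hS : StRes) : StB1 := by
  intro κ V _ _ n L m b
  have G := hG κ V n L
  have hπ : (-Real.pi : ℂ) ≠ 0 := neg_ne_zero.2 (Complex.ofReal_ne_zero.2 Real.pi_ne_zero)
  refine ⟨fun h1 h2 g a a' a'' => ?_, fun hp h2 ho => ?_⟩
  · have h3 := hS κ V n L m _ b g (G.num _ b h1) (Rn.hl_sm h1.hol) (G.num m b h2) (Rn.hl_sm h2.hol)
      (L.val_nm _ _ b) a a' a''
    rw [Lad.pV_dp G (x := 0) fun c z hz j => (dzb_an (h1.hol c z hz) j).trans (mul_zero _).symm,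
      ← zero_smul ℂ (0 : Vc (L.K (m + 1))), Rn.pV_smul, zero_mul] at h3
    exact (mul_eq_zero.1 h3.symm).resolve_left hπ
  · obtain ⟨f, x, h3, h4, h5, h6, h7, h8⟩ := Lad.lift0 G hL hS h2
    obtain ⟨v, a, a', rfl⟩ := hO.a1 _ _ _ hp x h6 fun g hg => by
      rw [h8 g hg.vec (Rn.hl_sm hg.hol) hg.dv, ho g hg, mul_zero]
    obtain ⟨b', k1, -, k2⟩ := G.glue m _ b (h3.sub (G.nu_num _ v a)) (Lad.hl_sub_nu h4 a' h7) h2.chg
      (Lad.val_sub_nu G h5 v)
    exact ⟨b', k1, k2⟩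

end Vale.Agent.P281Z.Lg
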