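import Vale.Agent.P281Z.Lg.B1

/-!
# P281Z, block LG: canonical lifts
-/

open scoped Manifold ContDiff Topology ComplexConjugate
open Filter Set MeasureTheory

noncomputable section

namespace Vale.Agent.P281Z.Lg

open Vale.Agent.P272.K Vale.Agent.P284.H608.K Vale.Agent.P281Z.Ha

theorem pS_sub {n : ℕ} {M : Type} [TopologicalSpace M] [MeasurableSpace M] {K : KA n M}
    {f f' a : Sc K} (h : Integrable (dS K f a) K.μ) (h' : Integrable (dS K f' a) K.μ) :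
    pS K (f - f') a = pS K f a - pS K f' a := by
  rw [pS, pS, pS, ← integral_sub h h']
  simp only [dS, Pi.sub_apply, sub_mul, mul_sub]

namespace Lad

variable {κ V : Type} [Fintype κ] [LinearOrder κ] {n : ℕ} {L : Lad κ V n} {m m' : ℕ}
  {b b' b'' : L.B → V → ℂ}

theorem sk_le (hG : Gl L) (h : m ≤ m') (h' : m' ≤ n) : L.sk m ⊆ L.sk m' := by
  induction m', h using Nat.le_induction with
  | base => exact Subset.rfl
  | succ k _ ih => exact (ih (Nat.le_of_succ_le h')).trans (hG.mono k h')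

theorem Agr.mono {S S' : Set V} (h : L.Agr S b b') (h' : S' ⊆ S) : L.Agr S' b b' :=
  fun β x hx => h β x (h' hx)

theorem Agr.trans {S : Set V} (h : L.Agr S b b') (h' : L.Agr S b' b'') : L.Agr S b b'' :=
  fun β x hx a => (h β x hx a).trans (h' β x hx a)

theorem Agr.fm_nm (h : L.Agr (L.sk m) b b') : L.fm (L.nm m b) = L.fm (L.nm m b') := by
  funext c z
  simp only [fm]
  split_ifs with hz
  · rw [nm, nm, h _ _ ⟨_, rfl⟩ (L.mem m c _ (((L.K m).e c).map_target hz))]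
  · rfl

theorem Agr.val (h : L.Agr (L.sk m) b b') {f : Sc (L.K m)} {S : Set V} (h' : L.Val f S b') :
    L.Val f S b := fun c y hy a => (h' c y hy a).trans (h _ _ ⟨y, rfl⟩ (L.mem m c y hy)).symm

theorem fm_nm_sub (b b' : L.B → V → ℂ) :
    L.fm (L.nm m (b - b')) = L.fm (L.nm m b) - L.fm (L.nm m b') := by
  funext c z
  simp only [fm, nm, Pi.sub_apply]
  split_ifs
  · ring
  · exact (sub_zero _).symm

/-- the section which is glued from a holomorphic form vanishes on the boundary -/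
theorem agr_sub (hG : Gl L) (hm : m < n) {a : Sc (L.K (m + 1))} (h : L.Chg (L.sk (m + 1)) b')
    (h' : L.Val (L.nu a) univ b') (b : L.B → V → ℂ) : L.Agr (L.sk m) (b - b') b := by
  intro β x hx hβ
  obtain ⟨y, rfl⟩ := hG.mono m hm hx
  have h1 := ix_src (L.K (m + 1)) y
  rw [Pi.sub_apply, Pi.sub_apply, h β _ _ ⟨y, rfl⟩ hβ (L.mem _ _ y h1), ← h' _ y h1 (mem_univ _),
    nu, (hG.bdry m _ y h1).2 hx, mul_zero, zero_mul, mul_zero, sub_zero]

theorem int_sec (hG : Gl L) (h : L.Sec m b) (a : Sc (L.K m)) (ha : H0 _ a) :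
    Integrable (dS _ (L.fm (L.nm m b)) a) (L.K m).μ :=
  hG.int m _ a (hG.num m b h) (Rn.hl_sm h.hol) ha.top (Rn.hl_sm ha.hol)

/-- an extension can be made orthogonal to the holomorphic forms -/
theorem orth (hO : Ha.Out) (hG : Gl L) (hm : m < n) (h : L.Sec (m + 1) b) :
    ∃ b', L.Sec (m + 1) b' ∧ L.Agr (L.sk m) b' b ∧
      ∀ a, H0 _ a → pS _ (L.fm (L.nm (m + 1) b')) a = 0 := by
  have := La.finS (K := L.K (m + 1)) hO.fin
  obtain ⟨a₀, h1, h2⟩ := La.riesz (La.hfS (hO.int _ _ _)) (La.cjS (int_sec hG h))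
  obtain ⟨b₀, h3, h4⟩ := hG.glue0 _ a₀ h1
  refine ⟨b - b₀, h.sub h3, agr_sub hG hm h3.chg h4 b, fun a ha => ?_⟩
  rw [fm_nm_sub, pS_sub (int_sec hG h a ha) (int_sec hG h3 a ha), h2 a ha,
    hG.fm_nu _ a₀ a b₀ h1.top h4, sub_self]

theorem rs_h0 (hR : Rs L) {g : Vc (L.K (m + 1))} (hg : Gam _ g) : H0 _ (L.rs g) :=
  ⟨hR.top m g hg.vec, hR.hl m g hg.vec hg.hol⟩

/-- the restriction as a linear map -/
def rsl (hR : Rs L) (m : ℕ) : Vc (L.K (m + 1)) →ₗ[ℂ] Sc (L.K m) where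
  toFun := L.rs
  map_add' := hR.add m
  map_smul' := hR.smul m

theorem can (hO : Ha.Out) (hR : Rs L) (hG : Gl L) (h1 : StB1) (hp : ∀ m, Psd (L.K m))
    {a : Sc (L.K m)} (ha : H0 _ a) (ho : ∀ g, Gam (L.K (m + 1)) g → pS _ a (L.rs g) = 0)
    (h : m ≤ m') (h' : m' ≤ n) : ∃ b, L.Sec m' b ∧ L.Val (L.nu a) univ b ∧ ∀ k, m < k → k ≤ m' →
      ∀ a' : Sc (L.K k), H0 _ a' → pS _ (L.fm (L.nm k b)) a' = 0 := by
  induction m', h using Nat.le_induction with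
  | base =>
    obtain ⟨b, h2, h3⟩ := hG.glue0 m a ha
    exact ⟨b, h2, h3, fun k hk hk' => (hk.not_ge hk').elim⟩
  | succ l hl ih =>
    obtain ⟨b, h2, h3, h4⟩ := ih (Nat.le_of_succ_le h')
    obtain ⟨b₁, h5, h6⟩ := (h1 κ V n L l b).2 (hp _) h2 fun g hg => by
      rcases hl.eq_or_lt with rfl | hl'
      · rw [hG.fm_nu _ a _ b ha.top h3, ho g hg]
      · exact h4 l hl' le_rfl _ (rs_h0 hR hg)
    obtain ⟨b₂, h7, h8, h9⟩ := orth hO hG h' h5
    have h10 : ∀ k ≤ l, L.Agr (L.sk k) b₂ b := fun k hk =>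
      (h8.trans h6).mono (sk_le hG hk (Nat.le_of_succ_le h'))
    refine ⟨b₂, h7, (h10 m hl).val h3, fun k hk hk' => ?_⟩
    rcases hk'.eq_or_lt with rfl | hk''
    · exact h9
    · rw [(h10 k (Nat.le_of_lt_succ hk'')).fm_nm]
      exact h4 k hk (Nat.le_of_lt_succ hk'')

end Lad

/-- (B2) -/
theorem stB2 (hO : Ha.Out) (hR : StRs) (hG : StGl) (h1 : StB1) : StB2 := by
  intro κ V _ _ n L hp m hm a ha
  have R := hR κ V n L
  have G := hG κ V n L
  have I := hO.int _ _ (L.K m)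
  refine ⟨fun ho => Lad.can hO R G h1 hp ha ho hm le_rfl, ?_⟩
  have := La.finS (K := L.K m) hO.fin
  have l : (Rn.Gs (L.K (m + 1))).map (Lad.rsl R m) ≤ Rn.H0s (L.K m) :=
    Submodule.map_le_iff_le_comap.2 fun g hg => Lad.rs_h0 R hg
  have := Submodule.finiteDimensional_of_le l
  obtain ⟨_, ⟨g, hg, rfl⟩, h2⟩ := La.riesz ((La.hfS I).mono l) (((La.hfS I).cj a ha).mono l)
  have h3 := Lad.rs_h0 R hg
  have h4 : ∀ g', Gam (L.K (m + 1)) g' → pS _ (a - L.rs g) (L.rs g') = 0 := fun g' hg' => by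
    have h5 := Lad.rs_h0 R hg'
    rw [pS_sub (I.intS _ _ ha.top h5.top (Rn.hl_sm ha.hol) (Rn.hl_sm h5.hol))
      (I.intS _ _ h3.top h5.top (Rn.hl_sm h3.hol) (Rn.hl_sm h5.hol))]
    exact sub_eq_zero.2 (h2 _ ⟨g', hg', rfl⟩)
  obtain ⟨b, h6, h7, -⟩ := Lad.can hO R G h1 hp ((Rn.H0s _).sub_mem ha h3) h4 hm le_rfl
  exact ⟨g, b, hg, h6, h7, h4⟩

end Vale.Agent.P281Z.Lg
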