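import Vale.Agent.P281Z.Lg.Defs
import Vale.Agent.P281Z.Lg.La

/-!
# P281Z, block LG, row B3: extension from a hypersurface
-/

open scoped Manifold ContDiff Topology ComplexConjugate ComplexOrder
open Filter Set MeasureTheory

noncomputable section

namespace Vale.Agent.P281Z.Lg

open Vale.Agent.P272.K Vale.Agent.P284.H608.K Vale.Agent.P281Z.Ha La Ha.Rn

namespace B3H

/-- the trivial bundle -/
def tw0 {n : ℕ} {M : Type} [TopologicalSpace M] [MeasurableSpace M] (K : KA n M) : Twi K where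
  γ _ _ _ := 1
  τ _ _ := 0
  σ _ _ := 1
  τsm _ _ _ := contDiffAt_const
  γhol _ _ _ _ _ := analyticAt_const
  coc _ _ _ _ _ _ _ := (one_mul _).symm
  self _ _ _ := rfl
  τch _ _ _ _ _ := by simp
  σhol _ _ _ := analyticAt_const
  σch _ _ _ _ _ := (one_mul _).symm

variable {κ V : Type} [Fintype κ] [LinearOrder κ] {n : ℕ} {L : Lad κ V n} {m : ℕ}

/-- the empty hypersurface -/
def triv (L : Lad κ V n) : L.Hy where
  T _ := tw0 _
  γ _ _ _ := 1
  s _ _ := 1
  hc _ := none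
  self _ _ _ := rfl
  coc _ _ _ _ _ _ _ := (one_mul _).symm
  chg _ _ _ _ _ := (one_mul _).symm
  hol _ _ _ _ _ _ _ _ := analyticAt_const
  γ_eq _ _ _ _ _ _ := rfl
  σ_eq _ _ _ _ := rfl
  on _ _ _ h := nomatch h
  out _ _ _ _ _ := one_ne_zero
  sl_τ _ _ _ _ _ _ _ := rfl

theorem pr_an (c : (L.K m).I) (z : Cm m) : AnalyticAt ℂ (L.pr c) z :=
  Finset.analyticAt_fun_prod _ fun l _ => by
    cases L.co c l with
    | none => exact analyticAt_const
    | some k => exact (ContinuousLinearMap.proj (R := ℂ) (φ := fun _ : Fin m => ℂ) k).analyticAt z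

/-- `∂̄ f = ε pr x` -/
def Db (L : Lad κ V n) (f : Sc (L.K m)) (x : Vc (L.K m)) : Prop :=
  ∀ c, ∀ z ∈ ((L.K m).e c).target, ∀ j, dzb j (f c) z = L.ε c * L.pr c z * x c z j

theorem res (G : Gl L) (hS : StRes) {f : Sc (L.K (m + 1))} {x g : Vc (L.K (m + 1))}
    {b : L.B → V → ℂ} (h1 : L.Num f) (h2 : Sm _ f) (hb : L.Sec m b) (h3 : L.Val f (L.sk m) b)
    (hd : Db L f x) (hg : Gam _ g) :
    pV _ x g = -Real.pi * pS _ (L.fm (L.nm m b)) (L.rs g) := by
  rw [← hS κ V n L m f b g h1 h2 (G.num m b hb) (hl_sm hb.hol) h3 hg.vec (hl_sm hg.hol) hg.dv]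
  refine integral_congr_ae ((G.ae (m + 1)).mono fun y hy => ?_)
  have a := ix_src (L.K (m + 1)) y
  have t := ((L.K (m + 1)).e _).map_source a
  refine congrArg _ (Finset.sum_congr rfl fun j _ => congrArg (· * _) ?_)
  rw [Lad.dp, if_pos t, hd _ _ t, eq_div_iff (hy _ a), ← mul_assoc, ← mul_assoc, L.eps, one_mul,
    mul_comm]

theorem fix (G : Gl L) {f v : Sc (L.K m)} (h1 : L.Num f) (h2 : Sm _ f) (hd : Db L f (db _ v))
    (v1 : Top _ v) (v2 : Sm _ v) : L.Num (f - L.nu v) ∧ Hl _ (f - L.nu v) := by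
  have a : ∀ (c : (L.K m).I) z, AnalyticAt ℂ (fun z => L.ε c * L.pr c z) z := fun c z =>
    analyticAt_const.mul (pr_an c z)
  refine ⟨fun c c' y h h' => ?_, hol_of (fun c z hz => (h2 c z hz).sub
    ((an_sm (a c z)).mul (v2 c z hz))) ?_⟩
  · simp only [Pi.sub_apply, h1 c c' y h h', G.nu_num m v v1 c c' y h h', mul_sub]
  · funext c z
    by_cases hz : z ∈ ((L.K m).e c).target
    · funext j
      have d := (v2 c z hz).differentiableAt (by simp)
      rw [db_eq _ hz]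
      refine (C2.dzb_sub j ((h2 c z hz).differentiableAt (by simp))
        (((an_sm (a c z)).differentiableAt (by simp)).mul d)).trans ?_
      rw [hd c z hz, db_eq _ hz]
      exact sub_eq_zero.2 (dzb_an_mul (a c z) d j).symm
    · exact db_off _ hz

theorem lift0 (hL : StLift) {b : L.B → V → ℂ} (hb : L.Sec m b) :
    ∃ (f : Sc (L.K (m + 1))) (x : Vc (L.K (m + 1))), L.Num f ∧ Sm _ f ∧ L.Val f (L.sk m) b ∧
      Cl _ x ∧ Db L f x := by
  have z : ∀ x, x ∉ (triv L).Z := fun x ⟨_, _, h⟩ => one_ne_zero h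
  obtain ⟨f, x, f1, f2, f3, -, hx, hd⟩ := hL κ V n L (triv L) m b b
    ⟨hb.hol, fun β β' x a h h' => (hb.chg β β' x a h h').trans (congrArg (· * _) (mul_one _).symm)⟩
    ⟨fun _ _ x a => (z x a.1).elim, fun _ _ _ h => (one_ne_zero h).elim⟩ fun _ _ _ _ => rfl
  exact ⟨f, x, fun c c' y h h' => (f1 c c' y h h').trans (congrArg (· * _) (mul_one _)), f2, f3, hx,
    fun c z hz j => (hd c z hz j).trans (congrArg (· * _) (mul_one _))⟩

theorem σ_zero (H : L.Hy) {c : (L.K m).I} {y : (L.Y m).X} (h : y ∈ ((L.K m).e c).source)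
    (hz : L.pt y ∈ H.Z) : (H.T m).σ c ((L.K m).e c y) = 0 := by
  obtain ⟨β, a, b⟩ := hz
  rw [H.σ_eq m c y h, H.chg _ β _ (L.mem m c y h) a, b, mul_zero]

theorem σ_reg (H : L.Hy) {g : Vc (L.K m)} (h : Gam _ g) (e : (H.T m).mul g = 0) : g = 0 := by
  funext c z
  by_cases hz : z ∈ ((L.K m).e c).target
  · have k : ∀ z', (H.T m).σ c z' ≠ 0 → g c z' = 0 := fun z' a =>
      (smul_eq_zero_iff_right a).1 (congrFun (congrFun e c) z')
    cases q : H.hc c with
    | none => exact k z (H.out m c q z hz)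
    | some j =>
      have t : Tendsto (fun s : ℂ => z + s • (Pi.single j 1 : Cm m)) (𝓝[≠] 0) (𝓝 z) :=
        tendsto_nhdsWithin_of_tendsto_nhds (Continuous.tendsto' (by fun_prop) _ _ (by simp))
      by_cases a : z j = 0
      · refine tendsto_nhds_unique ((h.hol c z hz).continuousAt.tendsto.comp t)
          (tendsto_const_nhds.congr' ?_)
        filter_upwards [t.eventually (((L.K m).e c).open_target.mem_nhds hz),
          self_mem_nhdsWithin] with s b d
        refine (k _ ?_).symm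
        rw [(H.on m c j q).2 _ b]
        simpa [a] using d
      · exact k z (by rwa [(H.on m c j q).2 z hz])
  · exact h.vec.off c z hz

/-- the restriction as a linear map -/
def rsL (R : Rs L) (m : ℕ) : Vc (L.K (m + 1)) →ₗ[ℂ] Sc (L.K m) where
  toFun := L.rs
  map_add' := R.add m
  map_smul' := R.smul m

end B3H

open B3H

/-- row B3 -/
theorem stB3 (hO : Ha.Out) (hR : StRs) (hG : StGl) (hL : StLift) (hS : StRes) : StB3 := by
  intro κ V _ _ n L H hP hD u hu m
  induction m with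
  | zero =>
    refine ⟨0, ⟨fun _ _ _ => analyticAt_const, fun _ _ _ _ _ _ => (mul_zero _).symm⟩, ?_⟩
    rintro β _ ⟨hz, y, rfl⟩ -
    obtain ⟨c, hc⟩ := (L.K 0).cover y
    refine (H.out 0 c ?_ _ (((L.K 0).e c).map_source hc) (σ_zero H hc hz)).elim
    cases H.hc c with
    | none => rfl
    | some k => exact k.elim0
  | succ m ih =>
    obtain ⟨b, hb, ha⟩ := ih
    obtain ⟨f, x, f1, f2, f3, f4, hx, hd⟩ := hL κ V n L H m b u hb (hu (m + 1)) ha
    have I1 := hO.int _ _ (L.K (m + 1))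
    have R := hR κ V n L
    have G := hG κ V n L
    have G' := hG κ V n H.lad
    have := finV (K := L.K (m + 1)) hO.fin
    obtain ⟨g, hg, h0, a, ha', e⟩ := split (hfV I1) (hfS (hO.int _ _ (L.K m)))
      (cjV I1 hx.cov (cl_sm hx)) (rsL R m) fun g hg => ⟨R.top m g hg.vec, R.hl m g hg.vec hg.hol⟩
    have a1 : H0 _ ((-Real.pi : ℂ)⁻¹ • a) := (H0s _).smul_mem _ ha'
    obtain ⟨b₁, s1, s2⟩ := G.glue0 m _ a1
    obtain ⟨f₁, x₁, k1, k2, k3, hx₁, k4⟩ := lift0 hL s1
    have hx' : Cl _ (x + (-1 : ℂ) • x₁) := cl_add hx (cl_smul _ hx₁)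
    have e' : ∀ v, Gam _ v → pV _ (x + (-1 : ℂ) • x₁) v = pV _ (fl _ g) v := fun v hv => by
      rw [pV_add I1 hx.cov (hx₁.cov.smul _) hv.vec (cl_sm hx) (cl_sm (cl_smul _ hx₁))
        (hl_sm hv.hol), pV_smul, res G hS k1 k2 s1 k3 k4 hv, G.fm_nu m _ _ _ a1.top s2, pS_smul,
        mul_inv_cancel_left₀ (by simp), e v hv]
      rw [neg_one_mul]
      exact add_neg_cancel_right _ _
    have sa : ∀ c, ∀ z ∈ ((L.K (m + 1)).e c).target, _ := (H.T (m + 1)).σhol
    have n1 : H.lad.Num (f - (H.T (m + 1)).mul f₁) := fun c c' y h h' => by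
      have q := f1 c c' y h h'
      simp only [Pi.sub_apply, Twi.mul, smul_eq_mul] at q ⊢
      rw [q, k1 c c' y h h', (H.T (m + 1)).σch c c' y h h', H.γ_eq _ c c' y h h']
      ring
    have n2 : Sm _ (f - (H.T (m + 1)).mul f₁) := fun c z hz =>
      (f2 c z hz).sub ((an_sm (sa c z hz)).mul (k2 c z hz))
    have n3 : H.lad.Sec m fun β p => b β p - H.s β p * b₁ β p := by
      refine ⟨fun c z hz => (hb.hol c z hz).sub ((((H.T m).σhol c z hz).congr ?_).mul
        (s1.hol c z hz)), fun β β' p i h h' => ?_⟩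
      · filter_upwards [((L.K m).e c).open_target.mem_nhds hz] with w hw
        rw [← H.σ_eq m c _ (((L.K m).e c).map_target hw), ((L.K m).e c).right_inv hw]
      · have q := hb.chg β β' p i h h'
        simp only at q ⊢
        rw [q, s1.chg β β' p i h h', H.chg β β' p h h']
        ring
    have n4 : H.lad.Val (f - (H.T (m + 1)).mul f₁) (H.lad.sk m)
        fun β p => b β p - H.s β p * b₁ β p := fun c y h i => by
      simp only [Pi.sub_apply, Twi.mul, smul_eq_mul]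
      rw [f3 c y h i, k3 c y h i, H.σ_eq _ c y h]
    have n5 : Db H.lad (f - (H.T (m + 1)).mul f₁)
        ((H.T (m + 1)).mul (x + (-1 : ℂ) • x₁)) := fun c z hz j => by
      have d := (k2 c z hz).differentiableAt (by simp)
      refine (C2.dzb_sub j ((f2 c z hz).differentiableAt (by simp))
        (((an_sm (sa c z hz)).differentiableAt (by simp)).mul d)).trans ?_
      refine (congrArg₂ (· - ·) (hd c z hz j) ((dzb_an_mul (sa c z hz) d j).trans
        (congrArg _ (k4 c z hz j)))).trans ?_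
      show _ = L.ε c * L.pr c z * ((H.T (m + 1)).σ c z * (x c z j + -1 * x₁ c z j))
      ring
    have g1 := hO.a2 _ _ _ (hP (m + 1)) _ (hD (m + 1)) g hg
    have g2 := hO.a3 _ _ _ (hP (m + 1)) _ _ g hx' hg g1 e'
    have g3 : H.lad.rs ((H.T (m + 1)).mul g) = 0 := by
      rw [R.tw m H g hg.vec, show L.rs g = 0 from h0]
      funext c z
      exact smul_zero _
    rw [res G' hS n1 n2 n3 n4 n5 g1, g3] at g2
    have g4 : g = 0 := σ_reg H hg ((hO.int _ _ (H.T (m + 1)).ka).posV _ g1.vec (hl_sm g1.hol)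
      (g2.symm.trans (by simp [pS, dS])))
    obtain ⟨v, v1, v2, v3⟩ := hO.a1 _ _ _ (hP (m + 1)) _ hx' fun v hv => by
      rw [e' v hv, g4]
      simp [pV, dV, fl]
    rw [← v3, ← tw_db _ v2] at n5
    obtain ⟨p1, p2⟩ := fix G' n1 n2 n5 (tw_top _ v1) fun c z hz =>
      (an_sm (sa c z hz)).mul (v2 c z hz)
    obtain ⟨b', q1, q2, -⟩ := G'.glue m _ _ p1 p2 n3.chg fun c y h i => (sub_eq_self.2
      (mul_eq_zero_of_left (mul_eq_zero_of_right _ ((G'.bdry m c y h).2 i)) _)).trans (n4 c y h i)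
    refine ⟨b', q1, ?_⟩
    rintro β _ ⟨hz, y, rfl⟩ hβ
    obtain ⟨c, hc⟩ := (L.K (m + 1)).cover y
    have w := L.mem _ c y hc
    rw [q1.chg β _ _ ⟨y, rfl⟩ hβ w, (hu (m + 1)).chg β _ _ ⟨hz, y, rfl⟩ hβ w,
      ← q2 c y hc (mem_univ _), ← f4 c y hc hz]
    simp only [Pi.sub_apply, Twi.mul, Lad.nu, σ_zero H hc hz, zero_smul, mul_zero, sub_zero]

end Vale.Agent.P281Z.Lg
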