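import Vale.Agent.P281Z.Lg.Defs
import Vale.Agent.P116.FK.Pom

/-!
# P281Z, block LG: (CP), the formula of Cauchy and Pompeiu with parameters
-/

open scoped ContDiff Topology
open Filter Set MeasureTheory

noncomputable section

namespace Vale.Agent.P281Z.Lg

open Vale.Agent.P272.K

namespace CpH

open Vale.Agent.P116.FK

theorem int_inv (R : ℝ) : IntegrableOn (fun z : ℂ => ‖z‖⁻¹) (Metric.ball (0 : ℂ) R) := by
  rw [integrableOn_fun_norm_addHaar (volume : Measure ℂ) (f := fun r : ℝ => r⁻¹)]
  rw [Complex.finrank_real_complex]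
  have : IntegrableOn (fun _ : ℝ => (1 : ℝ)) (Set.Ioo 0 R) := by
    simp
  refine this.congr_fun (fun r hr => ?_) measurableSet_Ioo
  simp [hr.1.ne']

theorem radius {E : Type} [NormedAddCommGroup E] {ψ : E → ℂ} (hs : HasCompactSupport ψ) :
    ∃ R : ℝ, ∀ z, R ≤ ‖z‖ → ψ z = 0 := by
  obtain ⟨R, hR⟩ := hs.isCompact.isBounded.subset_ball (0 : E)
  refine ⟨R, fun z hz => image_eq_zero_of_notMem_tsupport fun h => ?_⟩
  exact absurd (mem_ball_zero_iff.1 (hR h)) (not_lt.2 hz)

variable {n : ℕ} {κ : Type} [Fintype κ]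

theorem zt_cont (a : Option (Fin n)) : Continuous (zt a) := by
  cases a with
  | none => exact continuous_const
  | some k => exact continuous_apply k

open Classical in
theorem prod_zt {o : κ → Option (Fin n)} (h : ∀ l l' k, o l = some k → o l' = some k → l = l')
    (z : Cm n) : ∏ l, zt (o l) z = ∏ k, if ∃ l, o l = some k then z k else 1 := by
  have h1 : ∀ l, zt (o l) z = ∏ k, if o l = some k then z k else 1 := by
    intro l
    cases o l with
    | none => simp [zt]
    | some k => simp [zt]
  simp only [h1]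
  rw [Finset.prod_comm]
  refine Finset.prod_congr rfl fun k _ => ?_
  split_ifs with hk
  · obtain ⟨l, hl⟩ := hk
    rw [Finset.prod_eq_single l, if_pos hl]
    · exact fun l' _ hl' => if_neg fun h' => hl' (h l' l k h' hl)
    · exact fun h' => (h' (Finset.mem_univ l)).elim
  · exact Finset.prod_eq_one fun l _ => if_neg fun h' => hk ⟨l, h'⟩

theorem integ {o : κ → Option (Fin n)} (h : ∀ l l' k, o l = some k → o l' = some k → l = l')
    {ψ : Cm n → ℂ} (hψ : Continuous ψ) (hs : HasCompactSupport ψ) :
    Integrable (fun z => ψ z / ∏ l, zt (o l) z) := by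
  classical
  obtain ⟨R, hR⟩ := radius hs
  obtain ⟨C, hC⟩ := hψ.bounded_above_of_compact_support hs
  set f : Fin n → ℂ → ℝ := fun k => (Metric.ball (0 : ℂ) R).indicator
    fun t => if ∃ l, o l = some k then ‖t‖⁻¹ else 1 with hf
  have h1 : ∀ k, Integrable (f k) := by
    intro k
    refine (integrable_indicator_iff measurableSet_ball).2 ?_
    split_ifs
    · exact int_inv R
    · exact integrableOn_const measure_ball_lt_top.ne
  have h2 : Integrable (fun z : Cm n => ∏ k, f k (z k)) := Integrable.fintype_prod h1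
  have h3 : ∀ k t, 0 ≤ f k t := fun k t => indicator_nonneg (fun s _ => by
    split_ifs
    · positivity
    · exact zero_le_one) t
  refine (h2.const_mul C).mono' ?_ (Eventually.of_forall fun z => ?_)
  · exact (hψ.measurable.div
      (Finset.measurable_prod _ fun l _ => (zt_cont (o l)).measurable)).aestronglyMeasurable
  · by_cases hz : R ≤ ‖z‖
    · rw [hR z hz, zero_div, norm_zero]
      exact mul_nonneg ((norm_nonneg _).trans (hC z)) (Finset.prod_nonneg fun k _ => h3 k _)
    · rw [norm_div, prod_zt h, norm_prod, div_eq_mul_inv, ← Finset.prod_inv_distrib]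
      refine mul_le_mul (hC z) (le_of_eq (Finset.prod_congr rfl fun k _ => ?_))
        (Finset.prod_nonneg fun k _ => by positivity) ((norm_nonneg _).trans (hC z))
      have h4 : z k ∈ Metric.ball (0 : ℂ) R :=
        mem_ball_zero_iff.2 ((norm_le_pi_norm z k).trans_lt (not_le.1 hz))
      simp only [hf]
      rw [indicator_of_mem h4]
      split_ifs
      · rfl
      · rw [norm_one, inv_one]

variable {m : ℕ}

theorem fub (k : Fin (m + 1)) {F : Cm (m + 1) → ℂ} (hF : Integrable F) :
    ∫ z, F z = ∫ v : Cm m, ∫ t : ℂ, F (k.insertNth t v) := by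
  have h1 := (volume_preserving_piFinSuccAbove (fun _ : Fin (m + 1) => ℂ) k).symm _
  have h2 := (h1.integrable_comp_emb (MeasurableEquiv.measurableEmbedding _)).2 hF
  rw [← h1.integral_comp' F]
  exact integral_prod_symm _ h2

theorem ins_eq (k : Fin (m + 1)) (v : Cm m) (t : ℂ) :
    (k.insertNth t v : Cm (m + 1)) = ins k v + Pi.single k t := by
  funext j
  refine Fin.succAboveCases k ?_ (fun j => ?_) j
  · simp [ins]
  · simp [ins]

theorem zt_ins {a : Option (Fin (m + 1))} {k : Fin (m + 1)} (h : a ≠ some k) (v : Cm m) (t : ℂ) :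
    zt a (k.insertNth t v) = zt a (ins k v) := by
  cases a with
  | none => rfl
  | some j =>
    obtain ⟨j', rfl⟩ := Fin.exists_succAbove_eq (fun h' : j = k => h (congrArg some h'))
    simp [zt, ins]

section slice

variable {ψ : Cm (m + 1) → ℂ} (k : Fin (m + 1)) (v : Cm m)

theorem sl_smooth (hψ : ContDiff ℝ ∞ ψ) : ContDiff ℝ 1 fun t : ℂ => ψ (k.insertNth t v) := by
  simp only [ins_eq]
  refine (hψ.of_le (by simp)).comp (contDiff_const.add ?_)
  exact (ContinuousLinearMap.single ℝ (fun _ : Fin (m + 1) => ℂ) k).contDiff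

theorem sl_supp (hs : HasCompactSupport ψ) :
    HasCompactSupport fun t : ℂ => ψ (k.insertNth t v) := by
  obtain ⟨R, hR⟩ := radius hs
  refine HasCompactSupport.intro (isCompact_closedBall (0 : ℂ) R) fun t ht => hR _ ?_
  have h1 := norm_le_pi_norm (k.insertNth t v : Cm (m + 1)) k
  rw [Fin.insertNth_apply_same] at h1
  exact (not_le.1 fun h => ht (mem_closedBall_zero_iff.2 h)).le.trans h1

theorem sl_db (hψ : ContDiff ℝ ∞ ψ) (t : ℂ) :
    dzb k ψ (k.insertNth t v) = db (fun t : ℂ => ψ (k.insertNth t v)) t / 2 := by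
  have h1 : HasFDerivAt (fun t : ℂ => ins k v + Pi.single k t)
      (ContinuousLinearMap.single ℝ (fun _ : Fin (m + 1) => ℂ) k) t :=
    (ContinuousLinearMap.single ℝ (fun _ : Fin (m + 1) => ℂ) k).hasFDerivAt.const_add _
  have h2 := (hψ.differentiable (by simp) (ins k v + Pi.single k t)).hasFDerivAt.comp t h1
  simp only [ins_eq]
  unfold db dzb
  have h3 : fderiv ℝ (fun t : ℂ => ψ (ins k v + Pi.single k t)) t = _ := h2.fderiv
  rw [h3]
  rfl

end slice

theorem int_db {p : ℂ → ℂ} (h : ContDiff ℝ 1 p) (hs : HasCompactSupport p) :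
    ∫ w, db p w = 0 := by
  have h1 := pompeiu (ψ := fun w => w * p w) (contDiff_id.mul h) hs.mul_left
  rw [zero_mul, mul_zero] at h1
  rw [← h1]
  refine integral_congr_ae ?_
  filter_upwards [compl_mem_ae_iff.2 (measure_singleton (0 : ℂ))] with w hw
  have h2 := (hasFDerivAt_id (𝕜 := ℝ) w).mul (h.differentiable (by simp) w).hasFDerivAt
  have h3 : fderiv ℝ (fun w => w * p w) w = _ := h2.fderiv
  have h4 : w ≠ 0 := hw
  unfold db
  rw [h3]
  simp only [add_apply, smul_apply, ContinuousLinearMap.id_apply, id, smul_eq_mul]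
  field_simp
  linear_combination (-p w) * Complex.I_mul_I

theorem dzb_cont {ψ : Cm n → ℂ} (hψ : ContDiff ℝ ∞ ψ) (k : Fin n) : Continuous (dzb k ψ) := by
  have h := hψ.continuous_fderiv (by simp)
  exact ((h.clm_apply continuous_const).add
    (continuous_const.mul (h.clm_apply continuous_const))).div_const _

theorem dzb_supp {ψ : Cm n → ℂ} (hs : HasCompactSupport ψ) (k : Fin n) :
    HasCompactSupport (dzb k ψ) := by
  refine (hs.fderiv ℝ).mono fun z hz h0 => hz ?_
  unfold dzb
  rw [h0]
  simp

end CpH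

open CpH Vale.Agent.P116.FK

/-- **(CP)** -/
theorem stCp : StCp := by
  intro m κ _ o h ψ hψ hs k
  have hi := integ h (dzb_cont hψ k) (dzb_supp hs k)
  refine ⟨integ h hψ.continuous hs, fun hk => ?_, fun i hik => ?_⟩
  · rw [fub k hi]
    refine (integral_congr_ae (Eventually.of_forall fun v => ?_)).trans (integral_zero _ _)
    simp only [zt_ins (hk _), sl_db k v hψ]
    rw [integral_div, integral_div, int_db (sl_smooth k v hψ) (sl_supp k v hs), zero_div, zero_div]
  · rw [fub k hi, ← integral_const_mul]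
    refine integral_congr_ae (Eventually.of_forall fun v => ?_)
    have h1 : ∀ t : ℂ, ∏ l, zt (o l) (k.insertNth t v) =
        t * ∏ l ∈ Finset.univ.erase i, zt (o l) (ins k v) := by
      intro t
      rw [← Finset.mul_prod_erase _ _ (Finset.mem_univ i), hik]
      refine congrArg₂ (· * ·) (Fin.insertNth_apply_same (α := fun _ => ℂ) k t v)
        (Finset.prod_congr rfl fun l hl => zt_ins (fun h' => ?_) v t)
      exact Finset.ne_of_mem_erase hl (h l i k h' hik)
    have h2 : ∀ t : ℂ, dzb k ψ (k.insertNth t v) / ∏ l, zt (o l) (k.insertNth t v) =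
        t⁻¹ * db (fun t : ℂ => ψ (k.insertNth t v)) t /
          (2 * ∏ l ∈ Finset.univ.erase i, zt (o l) (ins k v)) := by
      intro t
      rw [h1, sl_db k v hψ]
      ring
    simp only [h2]
    rw [integral_div, pompeiu (sl_smooth k v hψ) (sl_supp k v hs)]
    change _ * ψ (ins k v) / _ = _
    ring

end Vale.Agent.P281Z.Lg
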