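import Vale.Agent.P281Z.Lg.Defs
import Vale.Agent.P277Z.Hir.IA

/-!
# P281Z, block LG: holomorphic functions on a union of coordinate hyperplanes

`stExl : StExl`: extension from a union of coordinate hyperplanes, and division by the product of
the coordinates.
-/

open scoped Topology
open Filter Set

noncomputable section

namespace Vale.Agent.P281Z.Lg

open Vale.Agent.P272.K Vale.Agent.P277Z.Hir

namespace ExlH

variable {m : ℕ}

/-- the coordinate as a linear form -/
def cl (k : Fin m) : Cm m →L[ℂ] ℂ := ContinuousLinearMap.proj (R := ℂ) (φ := fun _ : Fin m => ℂ) k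

/-- the projection to the hyperplane `z k = 0` -/
def pk (k : Fin m) : Cm m → Cm m := IH.pj (cl k) (Pi.single k 1)

theorem pk_self (k : Fin m) (z : Cm m) : pk k z k = 0 := by
  simp [pk, IH.pj, cl]

theorem pk_ne {k j : Fin m} (h : j ≠ k) (z : Cm m) : pk k z j = z j := by
  simp [pk, IH.pj, cl, Pi.single_eq_of_ne h]

theorem pk_zero {k j : Fin m} {z : Cm m} (h : z j = 0) : pk k z j = 0 := by
  by_cases hj : j = k
  · rw [hj, pk_self]
  · rw [pk_ne hj, h]

theorem pk_of {k : Fin m} {z : Cm m} (h : z k = 0) : pk k z = z := IH.pj_of_zero _ h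

theorem pk_tendsto {k : Fin m} {a : Cm m} (h : a k = 0) : Tendsto (pk k) (𝓝 a) (𝓝 a) :=
  IH.tendsto_pj _ h

theorem an_pk {k : Fin m} {a : Cm m} (h : a k = 0) {q : Cm m → ℂ} (hq : AnalyticAt ℂ q a) :
    AnalyticAt ℂ (fun z => q (pk k z)) a :=
  AnalyticAt.comp (g := q) (by rw [pk_of h]; exact hq) (IH.analyticAt_pj _ _ a)

/-- division by one coordinate -/
theorem div1 {k : Fin m} {a : Cm m} (h : a k = 0) {q : Cm m → ℂ} (hq : AnalyticAt ℂ q a)
    (h0 : ∀ᶠ z in 𝓝 a, z k = 0 → q z = 0) :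
    ∃ q' : Cm m → ℂ, AnalyticAt ℂ q' a ∧ ∀ᶠ z in 𝓝 a, q z = z k * q' z := by
  obtain ⟨g, hg, he⟩ := IH.hadamard (l := cl k) (Pi.single k 1) h hq
  refine ⟨g, hg, ((pk_tendsto h).eventually h0).mono fun z hz => ?_⟩
  have h1 : q z - q (pk k z) = z k * g z := he z
  rwa [hz (pk_self k z), sub_zero] at h1

/-- a continuous function which vanishes on `z j = 0` off `z k = 0` vanishes on `z j = 0` -/
theorem van_of {k j : Fin m} (hj : j ≠ k) {g : Cm m → ℂ} {z : Cm m} (hg : ContinuousAt g z)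
    (h0 : ∀ᶠ w in 𝓝 z, w j = 0 → w k * g w = 0) (hz : z j = 0) : g z = 0 := by
  let γ : ℂ → Cm m := fun t => Function.update z k t
  have hγ : Tendsto γ (𝓝[≠] (z k)) (𝓝 z) := by
    have h1 : Continuous γ := continuous_const.update k continuous_id
    have h2 := h1.tendsto (z k)
    rw [show γ (z k) = z from Function.update_eq_self k z] at h2
    exact h2.mono_left nhdsWithin_le_nhds
  have h3 : ∀ᶠ t in 𝓝[≠] (z k), t ≠ 0 := by
    by_cases hk : z k = 0
    · rw [hk]
      exact self_mem_nhdsWithin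
    · exact mem_nhdsWithin_of_mem_nhds (isOpen_ne.mem_nhds hk)
  have h4 : ∀ᶠ t in 𝓝[≠] (z k), g (γ t) = 0 := by
    filter_upwards [hγ.eventually h0, h3] with t ht ht0
    have h5 := ht (by rw [show γ t j = z j from Function.update_of_ne hj t z, hz])
    rw [show γ t k = t from Function.update_self k t z] at h5
    exact (mul_eq_zero.1 h5).resolve_left ht0
  exact tendsto_nhds_unique (hg.tendsto.comp hγ) (tendsto_const_nhds.congr' (h4.mono fun t ht => ht.symm))

theorem ext (a : Cm m) (b : Cm m → ℂ) (S : Finset (Fin m)) : (∀ k ∈ S, a k = 0) →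
    (∀ k ∈ S, ∃ q : Cm m → ℂ, AnalyticAt ℂ q a ∧ ∀ᶠ z in 𝓝 a, z k = 0 → b z = q z) →
    ∃ q : Cm m → ℂ, AnalyticAt ℂ q a ∧ ∀ᶠ z in 𝓝 a, ∀ k ∈ S, z k = 0 → b z = q z := by
  induction S using Finset.induction_on with
  | empty => exact fun _ _ => ⟨0, analyticAt_const, Eventually.of_forall fun z k hk => by simp at hk⟩
  | insert k S hk ih =>
    intro ha hb
    obtain ⟨q', hq', he'⟩ := ih (fun j hj => ha j (Finset.mem_insert_of_mem hj))
      fun j hj => hb j (Finset.mem_insert_of_mem hj)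
    obtain ⟨q, hq, he⟩ := hb k (Finset.mem_insert_self k S)
    have hak := ha k (Finset.mem_insert_self k S)
    refine ⟨fun z => q' z + (q (pk k z) - q' (pk k z)),
      hq'.add ((an_pk hak hq).sub (an_pk hak hq')), ?_⟩
    filter_upwards [he, he', (pk_tendsto hak).eventually he, (pk_tendsto hak).eventually he']
      with z h1 h2 h3 h4 j hj hz
    rcases Finset.mem_insert.1 hj with rfl | hj
    · rw [pk_of hz, h1 hz]
      ring
    · rw [← h3 (pk_self k z), ← h4 j hj (pk_zero hz), h2 j hj hz]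
      ring

theorem div (a : Cm m) (S : Finset (Fin m)) : (∀ k ∈ S, a k = 0) → ∀ q : Cm m → ℂ,
    AnalyticAt ℂ q a → (∀ᶠ z in 𝓝 a, ∀ k ∈ S, z k = 0 → q z = 0) →
    ∃ q' : Cm m → ℂ, AnalyticAt ℂ q' a ∧ ∀ᶠ z in 𝓝 a, q z = (∏ k ∈ S, z k) * q' z := by
  induction S using Finset.induction_on with
  | empty => exact fun _ q hq _ => ⟨q, hq, Eventually.of_forall fun z => by simp⟩
  | insert k S hk ih =>
    intro ha q hq h0
    obtain ⟨q₁, hq₁, he₁⟩ := div1 (ha k (Finset.mem_insert_self k S)) hq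
      (h0.mono fun z hz => hz k (Finset.mem_insert_self k S))
    obtain ⟨q', hq', he'⟩ := ih (fun j hj => ha j (Finset.mem_insert_of_mem hj)) q₁ hq₁ (by
      filter_upwards [hq₁.eventually_analyticAt, (h0.and he₁).eventually_nhds] with z h1 h2 j hj hz
      exact van_of (k := k) (fun h => hk (h ▸ hj)) h1.continuousAt
        (h2.mono fun w hw hwj => hw.2 ▸ hw.1 j (Finset.mem_insert_of_mem hj) hwj) hz)
    refine ⟨q', hq', ?_⟩
    filter_upwards [he₁, he'] with z h1 h2
    rw [h1, h2, Finset.prod_insert hk, mul_assoc]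

end ExlH

/-- (EXL) -/
theorem stExl : StExl := fun _ S a ha =>
  ⟨fun b hb => ExlH.ext a b S ha hb, fun q hq h0 => ExlH.div a S ha q hq h0⟩

end Vale.Agent.P281Z.Lg
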