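import Vale.Agent.P281Z.Lg.Bas
import Vale.Agent.P281Z.Ha.Int

/-!
# P281Z, block LG: sections on the union of the strata (GL)
-/

open scoped Manifold ContDiff Topology ComplexConjugate ComplexOrder
open Filter Set MeasureTheory

noncomputable section

namespace Vale.Agent.P281Z.Lg

open Vale.Agent.P272.K Vale.Agent.P284.H608.K Vale.Agent.P281Z.Ha Vale.Agent.P284.H205.K

namespace Lad

variable {κ V : Type} [Fintype κ] [LinearOrder κ] {n : ℕ} (L : Lad κ V n) {m : ℕ}

theorem nm_src (b : L.B → V → ℂ) {c : (L.K m).I} {y : (L.Y m).X} (h : y ∈ ((L.K m).e c).source) :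
    L.nm m b c ((L.K m).e c y) = b (L.bs c) (L.pt y) := by
  rw [nm, ((L.K m).e c).left_inv h]

theorem num_nm {b : L.B → V → ℂ} (h : L.Chg (L.sk m) b) : L.Num (L.nm m b) :=
  fun c c' y hy hy' => by
    rw [L.nm_src b hy, L.nm_src b hy']
    exact h _ _ _ ⟨y, rfl⟩ (L.mem m c y hy) (L.mem m c' y hy')

/-- the points of a slice -/
theorem up_symm (c : (L.K (m + 1)).I) {i : κ} {k : Fin (m + 1)} (h : L.co c i = some k) {v : Cm m}
    (hv : v ∈ ((L.K m).e (L.sl c h)).target) :
    L.pt (((L.K (m + 1)).e c).symm (ins k v)) = L.pt (((L.K m).e (L.sl c h)).symm v) := by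
  have h1 := ((L.K m).e _).map_target hv
  obtain ⟨hi, h2⟩ := (L.sl_src m c i k h _).1 h1
  rw [← L.up_pt m _ i hi, ← ((L.K (m + 1)).e c).left_inv h2, L.sl_e m c i k h _ h1 hi,
    ((L.K m).e _).right_inv hv]

theorem co_of_up {c : (L.K (m + 1)).I} {y : (L.Y m).X} {i : κ} (hi : i ∈ L.lab y)
    (h : L.up y hi ∈ ((L.K (m + 1)).e c).source) : ∃ k, L.co c i = some k :=
  Option.ne_none_iff_exists'.1 fun h0 => L.nb m c i h0 y hi h

theorem bdry (c : (L.K (m + 1)).I) {y : (L.Y (m + 1)).X} (hy : y ∈ ((L.K (m + 1)).e c).source) :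
    L.pr c ((L.K (m + 1)).e c y) = 0 ↔ L.pt y ∈ L.sk m := by
  refine ⟨fun h => ?_, fun ⟨y', h⟩ => ?_⟩
  · obtain ⟨l, -, hl⟩ := Finset.prod_eq_zero_iff.1 h
    cases h1 : L.co c l with
    | none => exact (one_ne_zero (h1 ▸ hl :)).elim
    | some k =>
      have h2 : ins k (k.removeNth ((L.K (m + 1)).e c y)) = (L.K (m + 1)).e c y := by
        rw [h1] at hl
        exact (congrArg (k.insertNth · _) hl.symm).trans (Fin.insertNth_self_removeNth k _)
      refine ⟨_, (L.up_symm c h1 (v := k.removeNth ((L.K (m + 1)).e c y)) ?_).symm.trans ?_⟩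
      · rw [L.sl_tg, mem_preimage, h2]
        exact ((L.K (m + 1)).e c).map_source hy
      · rw [h2, ((L.K (m + 1)).e c).left_inv hy]
  · obtain ⟨y'', i, hi, rfl⟩ := L.bd m y y' h.symm
    obtain ⟨k, hk⟩ := L.co_of_up hi hy
    rw [L.sl_e m c i k hk _ ((L.sl_src m c i k hk _).2 ⟨hi, hy⟩) hi, L.pr_ins c hk]

theorem lab_ne (h : m < n) (y : (L.Y m).X) : ∃ i, i ∈ L.lab y :=
  Finset.card_pos.1 (by have := L.card m y; omega)

theorem sk_mono (h : m < n) : L.sk m ⊆ L.sk (m + 1) := fun _ ⟨y, hy⟩ =>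
  (L.lab_ne h y).elim fun i hi => ⟨_, (L.up_pt m y i hi).trans hy⟩

theorem num_near {f : Sc (L.K m)} (hf : L.Num f) {c c' : (L.K m).I} {z : Cm m}
    (hz : z ∈ ((L.K m).e c).target) (h' : ((L.K m).e c).symm z ∈ ((L.K m).e c').source) :
    f c =ᶠ[𝓝 z] fun z => L.G (L.bs c) (L.bs c') (L.pt (((L.K m).e c).symm z)) *
      f c' ((L.K m).e c' (((L.K m).e c).symm z)) := by
  filter_upwards [near_two hz h'] with z hz
  have h2 := hf c c' _ (((L.K m).e c).map_target hz.1) hz.2
  rwa [((L.K m).e c).right_inv hz.1] at h2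

/-- one chart at each point is enough -/
theorem hl_of {f : Sc (L.K m)} (hf : L.Num f) (h : ∀ y, ∃ c, y ∈ ((L.K m).e c).source ∧
    AnalyticAt ℂ (f c) ((L.K m).e c y)) : Hl _ f := fun c z hz => by
  obtain ⟨c', h1, h2⟩ := h (((L.K m).e c).symm z)
  exact ((L.G_an hz h1).mul (h2.comp_of_eq ((L.K m).hol c c' z hz h1) rfl)).congr
    (L.num_near hf hz h1).symm

theorem sec_down {b : L.B → V → ℂ} (h : m < n) (hb : L.Sec (m + 1) b) : L.Sec m b := by
  have h0 : L.Chg (L.sk m) b := fun β β' x hx => hb.chg β β' x (L.sk_mono h hx)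
  refine ⟨L.hl_of (L.num_nm h0) fun y => ?_, h0⟩
  obtain ⟨i, hi⟩ := L.lab_ne h y
  have h1 := ix_src (L.K (m + 1)) (L.up y hi)
  obtain ⟨k, hk⟩ := L.co_of_up hi h1
  have h2 := (L.sl_src m _ i k hk _).2 ⟨hi, h1⟩
  have h3 := ((L.K m).e _).map_source h2
  refine ⟨_, h2, ((hb.hol _ _ (L.sl_tg m _ i k hk ▸ h3 :)).comp (ins_an k _)).congr ?_⟩
  filter_upwards [((L.K m).e _).open_target.mem_nhds h3] with v hv
  rw [Function.comp, nm, nm, L.up_symm _ hk hv, L.sl_bs]

theorem hl_val {f : Sc (L.K m)} {b : L.B → V → ℂ} (hf : Hl _ f) (h : L.Val f univ b) :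
    Hl _ (L.nm m b) := fun c z hz => by
  refine (hf c z hz).congr ?_
  filter_upwards [((L.K m).e c).open_target.mem_nhds hz] with v hv
  have := h c _ (((L.K m).e c).map_target hv) trivial
  rwa [((L.K m).e c).right_inv hv] at this

theorem sec_congr {b b' : L.B → V → ℂ} (h : L.Agr (L.sk m) b b') (hb : L.Sec m b) : L.Sec m b' :=
  ⟨L.hl_val hb.hol fun c y hy _ => (L.nm_src b hy).trans (h _ _ ⟨y, rfl⟩ (L.mem m c y hy)),
    fun β β' x hx h1 h2 => by rw [← h β x hx h1, ← h β' x hx h2, hb.chg β β' x hx h1 h2]⟩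

theorem num_nu {a : Sc (L.K m)} (ha : Top _ a) : L.Num (L.nu a) := fun c c' y h h' => by
  rw [nu, nu, ha.chg c c' y h h', ← mul_assoc, pr, L.rel m c c' y h h', mul_assoc, pr]

open Classical in
/-- the values of `f` at chosen points -/
def ev (f : Sc (L.K m)) (β : L.B) (x : V) : ℂ :=
  if h : ∃ y : (L.Y m).X, L.pt y = x then L.G β (L.bs ((L.K m).ix h.choose)) x *
    f ((L.K m).ix h.choose) ((L.K m).e ((L.K m).ix h.choose) h.choose) else 0

theorem ev_chg (f : Sc (L.K m)) : L.Chg (L.sk m) (L.ev f) := fun β β' x hx h h' => by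
  have hx' : ∃ y : (L.Y m).X, L.pt y = x := hx
  rw [ev, ev, dif_pos hx', dif_pos hx', ← mul_assoc,
    ← L.coc β β' _ x h h' (hx'.choose_spec ▸ L.mem m _ _ (ix_src _ _) :)]

theorem ev_val {f : Sc (L.K m)} (hf : L.Num f) {c : (L.K m).I} {y : (L.Y m).X}
    (hy : y ∈ ((L.K m).e c).source) (h : ∀ c', ∀ y' ∈ ((L.K m).e c').source, L.pt y' = L.pt y →
      L.pr c' ((L.K m).e c' y') = 0 → f c' ((L.K m).e c' y') = 0) :
    f c ((L.K m).e c y) = L.ev f (L.bs c) (L.pt y) := by
  have hx : ∃ y' : (L.Y m).X, L.pt y' = L.pt y := ⟨y, rfl⟩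
  rw [ev, dif_pos hx]
  have h1 := hx.choose_spec
  generalize hx.choose = y' at h1
  by_cases k : y = y'
  · subst k
    exact hf _ _ y hy (ix_src _ _)
  · rw [h c y hy rfl (L.uniq m c y hy y' h1.symm k),
      h _ y' (ix_src _ _) h1 (L.uniq m _ y' (ix_src _ _) y h1 (Ne.symm k)), mul_zero]

theorem glue {f : Sc (L.K (m + 1))} {b : L.B → V → ℂ} (hf : L.Num f) (hh : Hl _ f)
    (hb : L.Chg (L.sk m) b) (hv : L.Val f (L.sk m) b) :
    ∃ b', L.Sec (m + 1) b' ∧ L.Val f univ b' ∧ L.Agr (L.sk m) b' b := by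
  classical
  have h1 : L.Val f univ fun β x => if x ∈ L.sk m then b β x else L.ev f β x := fun c y hy _ => by
    beta_reduce
    split_ifs with k
    · exact hv c y hy k
    · exact L.ev_val hf hy fun c' y' h h' h0 => (k (h' ▸ (L.bdry c' h).1 h0)).elim
  refine ⟨_, ⟨L.hl_val hh h1, fun β β' x hx h h' => ?_⟩, h1, fun β x hx _ => if_pos hx⟩
  split_ifs with k
  · exact hb β β' x k h h'
  · exact L.ev_chg f β β' x hx h h'

theorem glue0 {a : Sc (L.K m)} (ha : H0 _ a) : ∃ b, L.Sec m b ∧ L.Val (L.nu a) univ b :=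
  have h : L.Val (L.nu a) univ (L.ev (L.nu a)) := fun _ _ hy _ =>
    L.ev_val (L.num_nu ha.top) hy fun c' y' _ _ h0 => by rw [nu, h0, mul_zero, zero_mul]
  ⟨_, ⟨L.hl_val (fun c z hz => (analyticAt_const.mul (L.pr_an c z)).mul (ha.hol c z hz)) h,
    L.ev_chg _⟩, h⟩

theorem ae_pr (c : (L.K m).I) : ∀ᵐ z : Cm m, L.pr c z ≠ 0 := by
  filter_upwards [eventually_all.2 fun j : Fin m =>
    Measure.ae_eval_ne (fun _ : Fin m => (volume : Measure ℂ)) j 0] with z hz
  refine Finset.prod_ne_zero_iff.2 fun l _ => ?_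
  cases L.co c l with
  | none => exact one_ne_zero
  | some j => exact hz j

theorem ae_ne : ∀ᵐ y ∂(L.K m).μ, ∀ c, y ∈ ((L.K m).e c).source →
    L.pr c ((L.K m).e c y) ≠ 0 := by
  have h1 : ∀ c, ∀ᵐ y ∂(L.K m).μ, y ∈ ((L.K m).e c).source → L.pr c ((L.K m).e c y) ≠ 0 :=
    fun c => by
    have h2 := ((L.K m).e c).isOpen_inter_preimage (s := {z | L.pr c z ≠ 0})
      (isOpen_ne_fun (continuous_iff_continuousAt.2 fun z => (L.pr_an c z).continuousAt)
        continuous_const)
    refine (ae_restrict_iff' ((L.K m).e c).open_source.measurableSet).1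
      (Eventually.mono (p := (· ∈ ((L.K m).e c).source ∩ (L.K m).e c ⁻¹' {z | L.pr c z ≠ 0})) ?_
        fun y hy => hy.2)
    rw [map_nuC]
    refine (ae_map_iff (symm_meas.mono_ac nuC_ac) h2.measurableSet).2 (nuC_ac.ae_le ?_)
    filter_upwards [ae_restrict_of_ae (L.ae_pr c),
      ae_restrict_mem ((L.K m).e c).open_target.measurableSet] with z a b
    exact ⟨((L.K m).e c).map_target b, by rwa [mem_preimage, ((L.K m).e c).right_inv b]⟩
  obtain ⟨t, ht⟩ := isCompact_univ.elim_finite_subcover (fun c => ((L.K m).e c).source)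
    (fun c => ((L.K m).e c).open_source) fun y _ => mem_iUnion.2 ((L.K m).cover y)
  filter_upwards [(eventually_all_finset t).2 fun c _ => h1 c] with y hy c hc
  obtain ⟨c', h2, h3⟩ := mem_iUnion₂.1 (ht (mem_univ y))
  exact mt (L.pr_zero hc h3).1 (hy c' h2 h3)

theorem fm_nu {a : Sc (L.K m)} (a' : Sc (L.K m)) {b : L.B → V → ℂ} (h : L.Val (L.nu a) univ b) :
    pS _ (L.fm (L.nm m b)) a' = pS _ a a' := by
  refine integral_congr_ae (L.ae_ne.mono fun y hy => ?_)
  have h1 := ix_src (L.K m) y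
  rw [dS, dS, fm, if_pos (((L.K m).e _).map_source h1), L.nm_src b h1, ← h _ y h1 trivial, nu,
    ← mul_assoc (L.ε _), ← mul_assoc (L.ε _), L.eps, one_mul, mul_div_cancel_left₀ _ (hy _ h1)]

theorem int_fm (hA : StApi) (hI : StInt) (hC : StCp) {f a : Sc (L.K m)} (hf : L.Num f)
    (sf : Sm _ f) (ha : Top _ a) (sa : Sm _ a) : Integrable (dS _ (L.fm f) a) (L.K m).μ := by
  have I := hI _ _ (L.K m)
  have tf := L.top_fm hf
  cases m with
  | zero =>
    refine I.intS _ _ tf ha (fun c z hz => ?_) sa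
    refine ((contDiffAt_const (c := L.ε c)).mul (sf c z hz)).congr_of_eventuallyEq ?_
    filter_upwards [((L.K 0).e c).open_target.mem_nhds hz] with v hv
    rw [fm, if_pos hv, pr, Finset.prod_eq_one fun l _ => ?_, div_one]
    cases L.co c l with
    | none => rfl
    | some j => exact j.elim0
  | succ m =>
    classical
    let K := L.K (m + 1)
    obtain ⟨s, χ, h1, h2, -, h4⟩ := I.pou _ fun x => (K.e _).open_source.mem_nhds (ix_src K x)
    suffices h : ∀ x, Integrable (fun y => (χ x y : ℂ) * dS K (L.fm f) a y) K.μ from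
      (integrable_finsetSum s fun x _ => h x).congr (.of_forall fun y => by
        simp only [← Finset.sum_mul, ← Complex.ofReal_sum, h2, Complex.ofReal_one, one_mul, K])
    intro x
    have hi := h1 x
    generalize K.ix x = c at hi
    have mt := (K.e c).open_target.measurableSet
    have hC' : IsCompact (K.e c '' tsupport (χ x)) :=
      (isClosed_tsupport _).isCompact.image_of_continuousOn ((K.e c).continuousOn.mono hi)
    let ψ : Cm (m + 1) → ℂ := (K.e c).target.indicator fun z => (χ x ((K.e c).symm z) : ℂ) *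
      ((Real.exp (-K.φ c z) : ℂ) * (L.ε c * f c z * conj (a c z)))
    have z0 : ∀ z ∉ K.e c '' tsupport (χ x), ψ z = 0 := fun z hz => indicator_apply_eq_zero.2
      fun h => mul_eq_zero_of_left (Complex.ofReal_eq_zero.2 (image_eq_zero_of_notMem_tsupport
        fun k => hz ⟨_, k, (K.e c).right_inv h⟩)) _
    have sψ : ContDiff ℝ ∞ ψ := contDiff_iff_contDiffAt.2 fun z => by
      by_cases h : z ∈ (K.e c).target
      · refine ((C2.contDiffAt_ofReal (h4 x c z h)).mul ((C2.contDiffAt_ofReal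
          (K.φsm c z h).neg.exp).mul (((contDiffAt_const (c := L.ε c)).mul (sf c z h)).mul
            ((Complex.conjCLE : ℂ →L[ℝ] ℂ).contDiff.contDiffAt.comp z
              (sa c z h))))).congr_of_eventuallyEq ?_
        filter_upwards [(K.e c).open_target.mem_nhds h] with v hv
        exact indicator_of_mem hv _
      · refine contDiffAt_const.congr_of_eventuallyEq (eventually_of_mem
          (hC'.isClosed.isOpen_compl.mem_nhds fun ⟨y, k, k'⟩ => h ?_) z0)
        exact k' ▸ (K.e c).map_source (hi k)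
    have h5 := (hC m κ (L.co c) (L.inj _ c) ψ sψ (HasCompactSupport.intro hC' z0) 0).1
    have h6 : ∀ z ∈ (K.e c).target, ψ z / L.pr c z = (χ x ((K.e c).symm z) : ℂ) *
        dS K (L.fm f) a ((K.e c).symm z) * (K.w c z).det := fun z hz => by
      have k := (K.e c).map_target hz
      rw [(hA _ _ K).dS_eq _ _ c _ k (fun j => tf.chg c j _ k) fun j => ha.chg c j _ k,
        (K.e c).right_inv hz, fm, if_pos hz, wt, mul_assoc, mul_right_comm,
        div_mul_cancel₀ _ (K.wpos c z hz).det_pos.ne']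
      rw [show ψ z = _ from indicator_of_mem hz _]
      ring
    refine (I.chart c _ (fun y hy => ?_) ?_).1.2 (h5.integrableOn.congr_fun h6 mt)
    · rw [image_eq_zero_of_notMem_tsupport fun k => hy (hi k), Complex.ofReal_zero, zero_mul]
    · refine (h5.integrableOn.1.mul (ContinuousOn.aestronglyMeasurable (f := fun z =>
        ((K.w c z).det)⁻¹) (fun z hz => ((contDiffAt_det (m := ∞) (K.wsm c z hz)).continuousAt.inv₀
          (K.wpos c z hz).det_pos.ne').continuousWithinAt) mt)).congr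
        ((ae_restrict_mem mt).mono fun z hz => ?_)
      exact (mul_inv_eq_iff_eq_mul₀ (K.wpos c z hz).det_pos.ne').2 (h6 z hz)

end Lad

theorem stGl (hA : Ha.StApi) (hI : Ha.StInt) (hC : StCp) : StGl := fun _ _ _ _ _ L =>
  { num := fun _ _ h => L.num_nm h.chg
    bdry := fun _ c _ => L.bdry c
    mono := fun _ => L.sk_mono
    down := fun _ _ => L.sec_down
    congr := fun _ _ _ => L.sec_congr
    nu_num := fun _ _ => L.num_nu
    glue := fun _ _ _ => L.glue
    glue0 := fun _ _ => L.glue0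
    fm_nu := fun _ _ a' _ _ => L.fm_nu a'
    int := fun _ _ _ => L.int_fm hA hI hC
    ae := fun _ => L.ae_ne }

end Vale.Agent.P281Z.Lg
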