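import Vale.Agent.P281Z.Lg.Defs
import Vale.Agent.P281Z.Ha.Api

/-!
# P281Z, block LG, row LIFT: a smooth lift and its class
-/

open scoped Manifold ContDiff Topology ComplexConjugate
open Filter Set

noncomputable section

namespace Vale.Agent.P281Z.Lg

open Vale.Agent.P272.K Vale.Agent.P284.H608.K Vale.Agent.P284.H205.K Vale.Agent.P281Z.Ha

namespace Lf

theorem prod_zt {m : ℕ} {ι : Type} [Fintype ι] {o : ι → Option (Fin m)}
    (h : ∀ l l' k, o l = some k → o l' = some k → l = l') {T : Finset (Fin m)}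
    (hT : ∀ k, k ∈ T ↔ ∃ l, o l = some k) (z : Cm m) : ∏ l, zt (o l) z = ∏ k ∈ T, z k := by
  classical
  have e : ∀ l ∈ Finset.univ, zt (o l) z = ∏ k, if o l = some k then z k else 1 := fun l _ => by
    cases o l <;> simp [zt]
  rw [Finset.prod_congr rfl e, Finset.prod_comm, ← Finset.prod_subset T.subset_univ
    fun k _ a => Finset.prod_eq_one fun l _ => if_neg fun b => a ((hT k).2 ⟨l, b⟩)]
  refine Finset.prod_congr rfl fun k a => ?_
  obtain ⟨l, b⟩ := (hT k).1 a
  rw [Finset.prod_eq_single l (fun l' _ c => if_neg fun d => c (h _ _ _ d b)) (by simp), if_pos b]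

variable {κ V : Type} [Fintype κ] [LinearOrder κ] {n : ℕ} {L : Lad κ V n} (H : L.Hy) {m : ℕ}

/-- the equation of the boundary and of the hypersurface -/
def P (c : (L.K m).I) (z : Cm m) : ℂ := L.ε c * L.pr c z * (H.T m).σ c z

variable {H} {c c' : (L.K m).I} {a : Cm m}

theorem P_an (ha : a ∈ ((L.K m).e c).target) : AnalyticAt ℂ (P H c) a :=
  (analyticAt_const.mul (Finset.analyticAt_fun_prod _ fun l _ => by
    cases L.co c l
    · exact analyticAt_const
    · exact (ContinuousLinearMap.proj (R := ℂ) _ : Cm m →L[ℂ] ℂ).analyticAt a)).mul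
    ((H.T m).σhol c a ha)

theorem eps_ne (c : (L.K m).I) : L.ε c ≠ 0 := left_ne_zero_of_mul_eq_one (L.eps m c)

theorem loc0 (ha : a ∈ ((L.K m).e c).target) : ∃ (S : Finset (Fin m)) (v : Cm m → ℂ),
    (∀ k ∈ S, a k = 0 ∧ ((∃ l, L.co c l = some k) ∨ H.hc c = some k)) ∧ AnalyticAt ℂ v a ∧
      v a ≠ 0 ∧ ∀ᶠ z in 𝓝 a, P H c z = v z * ∏ k ∈ S, z k := by
  classical
  let o : Option κ → Option (Fin m) := fun l => l.elim (H.hc c) (L.co c)
  let T := Finset.univ.filter fun k => ∃ l, o l = some k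
  have h1 := prod_zt (o := o) (T := T) (by
    rintro (_ | l) (_ | l') k h h'
    · rfl
    · exact absurd h' ((H.on m c k h).1 l')
    · exact absurd h ((H.on m c k h').1 l)
    · exact congrArg some (L.inj m c l l' k h h')) (by simp [T])
  obtain ⟨w, w1, w2, w3⟩ : ∃ w : Cm m → ℂ, AnalyticAt ℂ w a ∧ w a ≠ 0 ∧
      ∀ z ∈ ((L.K m).e c).target, (H.T m).σ c z = w z * zt (H.hc c) z := by
    cases h : H.hc c with
    | none => exact ⟨_, (H.T m).σhol c a ha, H.out m c h a ha, fun z _ => (mul_one _).symm⟩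
    | some k => exact ⟨fun _ => 1, analyticAt_const, one_ne_zero,
        fun z hz => ((H.on m c k h).2 z hz).trans (one_mul _).symm⟩
  refine ⟨T.filter fun k => a k = 0, fun z => L.ε c * w z * ∏ k ∈ T with ¬ a k = 0, z k,
    fun k hk => ?_, (analyticAt_const.mul w1).mul (Finset.analyticAt_fun_prod _ fun k _ =>
      (ContinuousLinearMap.proj (R := ℂ) k : Cm m →L[ℂ] ℂ).analyticAt a),
    mul_ne_zero (mul_ne_zero (eps_ne c) w2) (Finset.prod_ne_zero_iff.2 fun k hk =>
      (Finset.mem_filter.1 hk).2), ?_⟩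
  · obtain ⟨h2, h3⟩ := Finset.mem_filter.1 hk
    obtain ⟨_ | l, h4⟩ := (Finset.mem_filter.1 h2).2
    exacts [⟨h3, .inr h4⟩, ⟨h3, .inl ⟨l, h4⟩⟩]
  filter_upwards [((L.K m).e c).open_target.mem_nhds ha] with z hz
  have h2 := h1 z
  rw [Fintype.prod_option, ← Finset.prod_filter_mul_prod_filter_not T fun k => a k = 0] at h2
  change zt (H.hc c) z * L.pr c z = _ at h2
  rw [P, w3 z hz]
  linear_combination L.ε c * w z * h2

theorem freq (ha : a ∈ ((L.K m).e c).target) : ∃ᶠ z in 𝓝 a, P H c z ≠ 0 := by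
  obtain ⟨S, v, -, h1, h2, h3⟩ := loc0 (H := H) ha
  have d : Dense (univ.pi fun _ : Fin m => ({0}ᶜ : Set ℂ)) :=
    dense_pi _ fun _ _ => dense_compl_singleton 0
  refine ((mem_closure_iff_frequently.1 (d a)).and_eventually
    (h3.and (h1.continuousAt.eventually_ne h2))).mono fun z k => ?_
  rw [k.2.1]
  exact mul_ne_zero k.2.2 (Finset.prod_ne_zero_iff.2 fun i _ => k.1 i trivial)

theorem loc2 (hE : StExl) (ha : a ∈ ((L.K m).e c).target) {q : Cm m → ℂ} (hq : AnalyticAt ℂ q a)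
    (h : ∀ᶠ z in 𝓝 a, P H c z = 0 → q z = 0) :
    ∃ r, AnalyticAt ℂ r a ∧ ∀ᶠ z in 𝓝 a, q z = P H c z * r z := by
  obtain ⟨S, v, h0, h1, h2, h3⟩ := loc0 (H := H) ha
  obtain ⟨r, r1, r2⟩ := (hE m S a fun k b => (h0 k b).1).2 q hq ((h.and h3).mono fun z b k d e =>
    b.1 (b.2.trans (mul_eq_zero_of_right _ (Finset.prod_eq_zero d e))))
  refine ⟨fun z => r z / v z, r1.fun_div h1 h2, ?_⟩
  filter_upwards [r2, h3, h1.continuousAt.eventually_ne h2] with z b1 b2 b3
  rw [b1, b2]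
  field_simp

theorem mem_Z {y : (L.Y m).X} (hy : y ∈ ((L.K m).e c).source) :
    (H.T m).σ c ((L.K m).e c y) = 0 ↔ L.pt y ∈ H.Z := by
  rw [H.σ_eq m c y hy]
  exact ⟨fun h => ⟨_, L.mem m c y hy, h⟩, fun ⟨β, h1, h2⟩ => by
    rw [H.chg _ β _ (L.mem m c y hy) h1, h2, mul_zero]⟩

theorem P_chg {y : (L.Y m).X} (hy : y ∈ ((L.K m).e c).source) (hy' : y ∈ ((L.K m).e c').source) :
    P H c ((L.K m).e c y) * ta (L.K m) c c' y =
      H.lad.G (L.bs c) (L.bs c') (L.pt y) * P H c' ((L.K m).e c' y) := by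
  have h := L.rel m c c' y hy hy'
  rw [P, P, Lad.pr, Lad.pr, (H.T m).σch c c' y hy hy', H.γ_eq m c c' y hy hy']
  linear_combination H.γ (L.bs c) (L.bs c') (L.pt y) * (H.T m).σ c' ((L.K m).e c' y) * h

/-- `f` is near `a` a holomorphic function plus `P * R` -/
def Dec (H : L.Hy) (c : (L.K m).I) (f : Cm m → ℂ) (a : Cm m) (R : Cm m → ℂ) : Prop :=
  ∃ Q : Cm m → ℂ, ∀ᶠ z in 𝓝 a, AnalyticAt ℂ Q z ∧ ContDiffAt ℝ ∞ R z ∧ f z = Q z + P H c z * R z

variable {f R R' : Cm m → ℂ}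

theorem Dec.near (h : Dec H c f a R) : ∀ᶠ z in 𝓝 a, Dec H c f z R :=
  let ⟨Q, h⟩ := h
  h.eventually_nhds.mono fun _ k => ⟨Q, k⟩

theorem Dec.sm (h : Dec H c f a R) : ContDiffAt ℝ ∞ R a := h.choose_spec.self_of_nhds.2.1

theorem Dec.dzb (h : Dec H c f a R) (ha : a ∈ ((L.K m).e c).target) (j : Fin m) :
    dzb j f a = P H c a * dzb j R a := by
  obtain ⟨Q, h⟩ := h
  obtain ⟨h1, h2, -⟩ := h.self_of_nhds
  rw [C2.dzb_congr j (h.mono fun _ k => k.2.2), C2.dzb_add j
    ((an_sm h1).differentiableAt (by simp)) (((an_sm (P_an ha)).mul h2).differentiableAt (by simp)),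
    dzb_an h1, zero_add, dzb_an_mul (P_an ha) (h2.differentiableAt (by simp))]

theorem Dec.uniq (h : Dec H c f a R) (h' : Dec H c f a R') (ha : a ∈ ((L.K m).e c).target)
    (j : Fin m) : P272.K.dzb j R a = P272.K.dzb j R' a :=
  tendsto_nhds_unique_of_frequently_eq (C2.contDiffAt_dzb (m := ∞) j h.sm le_rfl).continuousAt
    (C2.contDiffAt_dzb (m := ∞) j h'.sm le_rfl).continuousAt (((freq ha).and_eventually (h.near.and
      (h'.near.and (((L.K m).e c).open_target.mem_nhds ha)))).mono fun _ k =>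
        mul_left_cancel₀ k.1 ((k.2.1.dzb k.2.2.2 j).symm.trans (k.2.2.1.dzb k.2.2.2 j)))

end Lf

open Lf

theorem stLift (_hA : StApi) (hI : StInt) (hG : StGl) (hE : StExl) : StLift := by
  intro κ V _ _ n L H m b u hb hu hA
  classical
  set B : L.B → V → ℂ := fun β x => if x ∈ L.sk m then b β x else u β x with hB
  have Bu : ∀ β, ∀ x ∈ H.Z, x ∈ L.U β → B β x = u β x := fun β x h1 h2 => by
    simp only [hB]
    split_ifs with h
    exacts [hA β x ⟨h1, h⟩ h2, rfl]
  have zer : ∀ c, ∀ y ∈ ((L.K (m + 1)).e c).source,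
      P H c ((L.K (m + 1)).e c y) = 0 ↔ L.pt y ∈ L.sk m ∨ L.pt y ∈ H.Z := fun c y h => by
    rw [P, mul_eq_zero, mul_eq_zero, (hG κ V n L).bdry m c y h, mem_Z h, or_iff_right (eps_ne c)]
  have chg : ∀ (y : (L.Y (m + 1)).X) β β', (L.pt y ∈ L.sk m ∨ L.pt y ∈ H.Z) → L.pt y ∈ L.U β →
      L.pt y ∈ L.U β' → B β (L.pt y) = H.lad.G β β' (L.pt y) * B β' (L.pt y) := by
    intro y β β' h h1 h2
    simp only [hB]
    split_ifs with k
    exacts [hb.chg β β' _ k h1 h2, hu.chg β β' _ ⟨h.resolve_left k, y, rfl⟩ h1 h2]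
  have loc1 : ∀ c, ∀ a ∈ ((L.K (m + 1)).e c).target, ∃ Q : Cm (m + 1) → ℂ, AnalyticAt ℂ Q a ∧
      ∀ᶠ z in 𝓝 a, P H c z = 0 → Q z = L.nm (m + 1) B c z := by
    intro c a ha
    obtain ⟨S, v, h0, h1, h2, h3⟩ := loc0 (H := H) ha
    have ht := ((L.K (m + 1)).e c).open_target.mem_nhds ha
    obtain ⟨Q, q1, q2⟩ := (hE _ S a fun k h => (h0 k h).1).1 (L.nm (m + 1) B c) fun k hk => by
      obtain ⟨a0, ⟨l, h⟩ | h⟩ := h0 k hk
      · have e : ∀ z : Cm (m + 1), z k = 0 → ins k (k.removeNth z) = z := fun z e => by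
          rw [ins, ← e, Fin.insertNth_self_removeNth]
        have e' : ∀ z ∈ ((L.K (m + 1)).e c).target, z k = 0 →
            k.removeNth z ∈ ((L.K m).e (L.sl c h)).target := fun z e1 e2 => by
          rwa [L.sl_tg, mem_preimage, e z e2]
        refine ⟨fun z => L.nm m b (L.sl c h) (k.removeNth z), AnalyticAt.comp
          (g := L.nm m b (L.sl c h)) (f := fun z : Cm (m + 1) => k.removeNth z)
          (hb.hol (L.sl c h) _ (e' a ha a0)) (AnalyticAt.pi fun i =>
            (ContinuousLinearMap.proj (R := ℂ) _ : Cm (m + 1) →L[ℂ] ℂ).analyticAt a), ?_⟩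
        filter_upwards [ht] with z hz z0
        have y1 := ((L.K m).e (L.sl c h)).map_target (e' z hz z0)
        obtain ⟨hi, y2⟩ := (L.sl_src m c l k h _).1 y1
        have y3 := L.sl_e m c l k h _ y1 hi
        rw [((L.K m).e (L.sl c h)).right_inv (e' z hz z0), e z z0] at y3
        simp only [Lad.nm, hB]
        rw [L.sl_bs, ← L.up_pt m _ l hi, ← ((L.K (m + 1)).e c).left_inv y2, y3, if_pos]
        exact ⟨_, by rw [← y3, ((L.K (m + 1)).e c).left_inv y2, L.up_pt]⟩
      · obtain ⟨q, q1, q2⟩ := hu.ext c a ha (((H.on _ c k h).2 a ha).trans a0)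
        refine ⟨q, q1, ?_⟩
        filter_upwards [ht, q2] with z hz z1 z0
        have y1 := ((L.K (m + 1)).e c).map_target hz
        have y2 := ((H.on _ c k h).2 z hz).trans z0
        exact (Bu _ _ ((mem_Z y1).1 (by rwa [((L.K (m + 1)).e c).right_inv hz]))
          (L.mem _ c _ y1)).trans (z1 y2)
    refine ⟨Q, q1, ?_⟩
    filter_upwards [q2, h3, h1.continuousAt.eventually_ne h2] with z z1 z2 z3 z4
    obtain ⟨k, k1, k2⟩ := Finset.prod_eq_zero_iff.1 ((mul_eq_zero.1 (z2 ▸ z4)).resolve_left z3)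
    exact (z1 k k1 k2).symm
  set K := L.K (m + 1) with hK
  choose Q Q1 Q2 using fun x : (L.Y (m + 1)).X => loc1 _ _ ((K.e (K.ix x)).map_source (ix_src K x))
  obtain ⟨s, χ, c1, c2, -, c3⟩ := (hI _ _ K).pou (fun x => {y | y ∈ (K.e (K.ix x)).source ∧
      AnalyticAt ℂ (Q x) (K.e (K.ix x) y) ∧ ∀ᶠ z in 𝓝 (K.e (K.ix x) y),
        P H (K.ix x) z = 0 → Q x z = L.nm (m + 1) B (K.ix x) z}) fun x =>
    Eventually.and ((K.e (K.ix x)).open_source.mem_nhds (ix_src K x))
      (((K.e (K.ix x)).continuousAt (ix_src K x)).eventually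
        ((Q1 x).eventually_analyticAt.and (Q2 x).eventually_nhds))
  set T : _ → L.B → (L.Y (m + 1)).X → ℂ := fun x β y =>
    H.lad.G β (L.bs (K.ix x)) (L.pt y) * Q x (K.e (K.ix x) y) with hT
  set f : Sc K := fun c z => ∑ x ∈ s, χ x ((K.e c).symm z) * T x (L.bs c) ((K.e c).symm z) with hf
  have c0 : ∀ y, ∑ x ∈ s, (χ x y : ℂ) = 1 := fun y => by exact_mod_cast c2 y
  have tv : ∀ x c y, y ∈ (K.e c).source → y ∈ (K.e (K.ix x)).source →
      (P H (K.ix x) (K.e (K.ix x) y) = 0 → Q x (K.e (K.ix x) y) =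
        L.nm (m + 1) B (K.ix x) (K.e (K.ix x) y)) → (L.pt y ∈ L.sk m ∨ L.pt y ∈ H.Z) →
      T x (L.bs c) y = B (L.bs c) (L.pt y) := fun x c y h1 h2 h3 h4 => by
    simp only [hT, h3 ((zer _ y h2).2 h4), Lad.nm]
    rw [(K.e (K.ix x)).left_inv h2]
    exact (chg y _ _ h4 (L.mem _ c y h1) (L.mem _ _ y h2)).symm
  have num : H.lad.Num f := fun c c' y h h' => by
    simp only [hf, Finset.mul_sum]
    refine Finset.sum_congr rfl fun x _ => ?_
    rw [(K.e c).left_inv h, (K.e c').left_inv h']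
    by_cases e : χ x y = 0
    · simp [e]
    · have := H.lad.coc _ (L.bs c') _ _ (L.mem _ c y h) (L.mem _ c' y h')
        (L.mem _ _ y (c1 x (subset_tsupport _ e)).1)
      simp only [hT]
      linear_combination χ x y * Q x (K.e (K.ix x) y) * this
  have val : ∀ c, ∀ y ∈ (K.e c).source, (L.pt y ∈ L.sk m ∨ L.pt y ∈ H.Z) →
      f c (K.e c y) = B (L.bs c) (L.pt y) := fun c y h h' => by
    simp only [hf]
    rw [(K.e c).left_inv h, ← one_mul (B _ _), ← c0 y, Finset.sum_mul]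
    refine Finset.sum_congr rfl fun x _ => ?_
    by_cases e : χ x y = 0
    · simp [e]
    · rw [tv x c y h (c1 x (subset_tsupport _ e)).1 (c1 x (subset_tsupport _ e)).2.2.self_of_nhds h']
  have loc3 : ∀ c a, ∃ R, a ∈ (K.e c).target → Dec H c (f c) a R := by
    intro c a
    by_cases ha : a ∈ (K.e c).target
    swap
    · exact ⟨0, fun h => absurd h ha⟩
    obtain ⟨q, q1, q2⟩ := loc1 c a ha
    have ht := (K.e c).open_target.mem_nhds ha
    have hs := (K.e c).continuousAt_symm ha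
    have k : ∀ x, ∃ r : Cm (m + 1) → ℂ, AnalyticAt ℂ r a ∧ ∀ᶠ z in 𝓝 a,
        χ x ((K.e c).symm z) * T x (L.bs c) ((K.e c).symm z) =
          χ x ((K.e c).symm z) * (q z + P H c z * r z) := by
      intro x
      by_cases e : (K.e c).symm a ∈ tsupport (χ x)
      · obtain ⟨e1, e2, e3⟩ := c1 x e
        have t1 := K.hol c _ a ha e1
        obtain ⟨r, r1, r2⟩ := loc2 (H := H) hE ha
          (q := fun z => T x (L.bs c) ((K.e c).symm z) - q z)
          (((H.lad.hol _ c _ _ a ha (L.mem _ c _ ((K.e c).map_target ha)) (L.mem _ _ _ e1)).mul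
            (AnalyticAt.comp (g := Q x) (f := tr K c (K.ix x)) e2 t1)).sub q1) (by
            filter_upwards [q2, near_two ha e1, t1.continuousAt.eventually e3] with z z1 z2 z3 z4
            have z5 := (K.e c).map_target z2.1
            rw [tv x c _ z5 z2.2 z3 ((zer c _ z5).1 (by rwa [(K.e c).right_inv z2.1])), z1 z4]
            exact sub_self _)
        exact ⟨r, r1, r2.mono fun z h => by rw [← h, add_sub_cancel]⟩
      · exact ⟨fun _ => 0, analyticAt_const, (hs.eventually (notMem_tsupport_iff_eventuallyEq.1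
          e)).mono fun z h => by simp [h]⟩
    choose r r1 r2 using k
    refine ⟨fun z => ∑ x ∈ s, χ x ((K.e c).symm z) * r x z, fun _ => ⟨q, ?_⟩⟩
    filter_upwards [q1.eventually_analyticAt, ht, (eventually_all_finset s).2 fun x _ =>
      (r1 x).eventually_analyticAt.and (r2 x)] with z z1 z2 z3
    refine ⟨z1, ContDiffAt.sum fun x hx => (C2.contDiffAt_ofReal (c3 x c z z2)).mul
      (an_sm (z3 x hx).1), ?_⟩
    simp only [hf]
    rw [Finset.sum_congr rfl fun x hx => (z3 x hx).2]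
    simp only [mul_add, Finset.sum_add_distrib, ← Finset.sum_mul, c0, one_mul, Finset.mul_sum,
      mul_left_comm]
  choose R hR using loc3
  have xe : ∀ c, ∀ a ∈ (K.e c).target, ∀ R', Dec H c (f c) a R' → ∀ j, dzb j R' a =
      (if a ∈ (K.e c).target then dzb j (R c a) a else 0) := fun c a ha R' h j => by
    rw [if_pos ha, h.uniq (hR c a ha) ha]
  refine ⟨f, fun c a j => if a ∈ (K.e c).target then dzb j (R c a) a else 0, num, fun c a ha => ?_,
    fun c y h h' => (val c y h (.inl h')).trans (if_pos h'),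
    fun c y h h' => (val c y h (.inr h')).trans (Bu _ _ h' (L.mem _ c y h)),
    ⟨⟨fun c c' y h h' j => ?_, fun c z hz => funext fun _ => if_neg hz⟩, fun c a ha => ⟨R c a, ?_⟩⟩,
    fun c a ha j => ((hR c a ha).dzb ha j).trans (congrArg _ (if_pos ha).symm)⟩
  · obtain ⟨q, h⟩ := hR c a ha
    exact ((an_sm h.self_of_nhds.1).add ((an_sm (P_an ha)).mul
      h.self_of_nhds.2.1)).congr_of_eventuallyEq (h.mono fun _ k => k.2.2)
  · have hz := (K.e c).map_source h
    have hz' := (K.e c').map_source h'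
    have hj : (K.e c).symm (K.e c y) ∈ (K.e c').source := by rwa [(K.e c).left_inv h]
    have d := hR c' _ hz'
    have h1 := dzb_tr (q := R c' (K.e c' y)) hz hj (by
      rw [tr_apply h]
      exact d.sm.differentiableAt (by simp)) j
    rw [(K.e c).left_inv h, tr_apply h] at h1
    refine Eq.trans ?_ (h1.trans (congrArg _ (Finset.sum_congr rfl fun _ _ =>
      congrArg _ (if_pos hz').symm)))
    generalize R c' (K.e c' y) = r at d
    obtain ⟨q, d⟩ := d
    refine (xe c _ hz _ ⟨fun z => H.lad.G (L.bs c) (L.bs c') (L.pt ((K.e c).symm z)) *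
      q (tr K c c' z), ?_⟩ j).symm
    rw [← tr_apply h] at d
    filter_upwards [near_two hz hj, (K.hol c c' _ hz hj).continuousAt.eventually d] with z z1 z2
    have z3 := (K.e c).map_target z1.1
    have z4 := K.hol c c' z z1.1 z1.2
    refine ⟨(H.lad.hol _ c _ _ z z1.1 (L.mem _ c _ z3) (L.mem _ c' _ z1.2)).mul
      (AnalyticAt.comp (g := q) (f := tr K c c') z2.1 z4),
      (an_sm (ta_hol z1.1 z1.2)).mul (z2.2.1.comp z (an_sm z4)), ?_⟩
    have z5 := num c c' _ z3 z1.2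
    have z6 := P_chg (H := H) z3 z1.2
    rw [(K.e c).right_inv z1.1] at z5 z6
    rw [z5, z2.2.2]
    simp only [tr]
    linear_combination (-r (K.e c' ((K.e c).symm z))) * z6
  · filter_upwards [(hR c a ha).near, (K.e c).open_target.mem_nhds ha] with z z1 z2
    exact ⟨z1.sm, xe c z z2 _ z1⟩

end Vale.Agent.P281Z.Lg
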