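import Vale.Agent.P281Z.Lg.Bas
import Vale.Agent.P281Z.Ha.Int

/-!
# P281Z, block LG: the residue formula
-/

open scoped ContDiff Topology ComplexConjugate ComplexOrder
open Filter Set MeasureTheory

noncomputable section

namespace Vale.Agent.P281Z.Lg

open Vale.Agent.P272.K Vale.Agent.P284.H608.K Vale.Agent.P281Z.Ha

namespace Rz

theorem chart' {n : ℕ} {M : Type} [TopologicalSpace M] [MeasurableSpace M] {K : KA n M}
    (I : Ha.Int K) (i : K.I) {F : M → ℂ} (h0 : ∀ x ∉ (K.e i).source, F x = 0) {G : Cm n → ℂ}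
    (hG : Integrable G) (hG0 : ∀ z ∉ (K.e i).target, G z = 0)
    (h : ∀ z ∈ (K.e i).target, F ((K.e i).symm z) * (K.w i z).det = G z) :
    Integrable F K.μ ∧ ∫ x, F x ∂K.μ = ∫ z, G z := by
  have mt := (K.e i).open_target.measurableSet
  have c : ContinuousOn (fun z => (K.w i z).det⁻¹) (K.e i).target := fun z hz =>
    ((contDiffAt_det (K.wsm i z hz)).continuousAt.inv₀
      (K.wpos i z hz).det_pos.ne').continuousWithinAt
  obtain ⟨a, b⟩ := I.chart i F h0 ((hG.aestronglyMeasurable.restrict.mul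
    (c.aestronglyMeasurable mt)).congr ((ae_restrict_mem mt).mono fun z hz => by
      simp only [Pi.mul_apply, ← h z hz, mul_inv_cancel_right₀ (K.wpos i z hz).det_pos.ne']))
  exact ⟨a.2 ((integrableOn_congr_fun h mt).2 hG.integrableOn), by
    rw [b, setIntegral_congr_fun mt h, setIntegral_eq_integral_of_forall_compl_eq_zero hG0]⟩

theorem sum_lab {κ β : Type} [Fintype κ] [Fintype β] {o : κ → Option β}
    (inj : ∀ l l' k, o l = some k → o l' = some k → l = l') {T : β → ℂ} {S : κ → ℂ}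
    (h0 : ∀ j, (∀ l, o l ≠ some j) → T j = 0) (h1 : ∀ i j, o i = some j → T j = S i)
    (h2 : ∀ i, o i = none → S i = 0) : ∑ j, T j = ∑ i, S i := by
  classical
  have a : ∀ j, T j = ∑ i, if o i = some j then T j else 0 := fun j => by
    by_cases h : ∃ l, o l = some j
    · obtain ⟨l, hl⟩ := h
      rw [Finset.sum_eq_single l (fun l' _ k => if_neg fun k' => k (inj _ _ j k' hl)) (by simp),
        if_pos hl]
    · simp [h0 j (not_exists.1 h)]
  rw [Finset.sum_congr rfl fun j _ => a j, Finset.sum_comm]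
  refine Finset.sum_congr rfl fun i _ => ?_
  rcases h : o i with _ | k
  · simp [h2 i h]
  · simp [h1 i k h]

theorem cp_int (hC : StCp) {m : ℕ} {κ : Type} [Fintype κ] {o : κ → Option (Fin m)}
    (inj : ∀ l l' k, o l = some k → o l' = some k → l = l') {ψ : Cm m → ℂ} (h : ContDiff ℝ ∞ ψ)
    (hc : HasCompactSupport ψ) : Integrable fun z => ψ z / ∏ l, zt (o l) z := by
  cases m with
  | zero =>
    have : ∀ l z, zt (o l) z = 1 := fun l z => by
      rcases o l with _ | k
      · rfl
      · exact k.elim0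
    simpa only [this, Finset.prod_const_one, div_one] using
      h.continuous.integrable_of_hasCompactSupport hc
  | succ m => exact (hC m κ o inj ψ h hc 0).1

theorem ins_sm {m : ℕ} (k : Fin (m + 1)) : ContDiff ℝ ∞ (ins k) :=
  contDiff_iff_contDiffAt.2 fun v => an_sm (ins_an k v)

theorem ins_emb {m : ℕ} (k : Fin (m + 1)) : Topology.IsClosedEmbedding (ins k) :=
  Function.LeftInverse.isClosedEmbedding (f := fun z j => z (k.succAbove j))
    (fun v => funext (ins_succ k v)) (by fun_prop) (ins_sm k).continuous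

variable {κ V : Type} [Fintype κ] [LinearOrder κ] {n : ℕ} {L : Lad κ V n} {m : ℕ}
  {f : Sc (L.K (m + 1))} {b : L.B → V → ℂ} {g : Vc (L.K (m + 1))} {χ : (L.Y (m + 1)).X → ℝ}

/-- the product with a function -/
def ml (χ : (L.Y (m + 1)).X → ℝ) (f : Sc (L.K (m + 1))) : Sc (L.K (m + 1)) :=
  fun c z => χ (((L.K (m + 1)).e c).symm z) * f c z

/-- the density on the branch `i` -/
def br (χ : (L.Y (m + 1)).X → ℝ) (b : L.B → V → ℂ) (g : Vc (L.K (m + 1))) (i : κ)
    (y : (L.Y m).X) : ℂ :=
  if hi : i ∈ L.lab y then χ (L.up y hi) * dS (L.K m) (L.fm (L.nm m b))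
    (fun c _ => L.rt g c y hi ((L.K (m + 1)).ix (L.up y hi))) y else 0

theorem rt_one {c₁ : (L.K (m + 1)).I} {i : κ} {k : Fin (m + 1)} (h : L.co c₁ i = some k)
    (c : (L.K m).I) {y : (L.Y m).X} (hi : i ∈ L.lab y) : L.rt g c y hi c₁ =
      ta (L.K m) c (L.sl c₁ h) y *
        (L.ε c₁ * L.ε (L.sl c₁ h) * g c₁ ((L.K (m + 1)).e c₁ (L.up y hi)) k) := by
  rw [Lad.rt, Finset.sum_eq_single k (fun k' _ hk => dif_neg fun h' =>
    hk (Option.some.inj (h'.symm.trans h))) (by simp), dif_pos h]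

theorem loc (I : ∀ m, Ha.Int (L.K m)) (R : Rs L) (hC : StCp) (hf : L.Num f) (sf : Sm _ f)
    (hb : L.Num (L.nm m b)) (hV : L.Val f (L.sk m) b) (hg : Vec _ g) (sg : Sm _ g) (hd : Dv _ g)
    (sχ : Sm (L.K (m + 1)) fun c z => χ (((L.K (m + 1)).e c).symm z)) {c : (L.K (m + 1)).I}
    (hχ : tsupport χ ⊆ ((L.K (m + 1)).e c).source) :
    Integrable (dV _ (L.dp (ml χ f)) g) (L.K (m + 1)).μ ∧
      (∀ i, Integrable (br χ b g i) (L.K m).μ) ∧
      pV _ (L.dp (ml χ f)) g = ∑ i, -Real.pi * ∫ y, br χ b g i y ∂(L.K m).μ := by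
  let K := L.K (m + 1)
  let e := K.e c
  have nf : L.Num (ml χ f) := fun c c' y h h' => by
    rw [ml, ml, (K.e c).left_inv h, (K.e c').left_inv h', hf c c' y h h', mul_left_comm]
  have sf' : Sm K (ml χ f) := fun i z hz => (ofReal_contDiffAt (sχ i z hz)).mul (sf i z hz)
  have hK : IsCompact (e '' tsupport χ) :=
    (isClosed_tsupport χ).isCompact.image_of_continuousOn (e.continuousOn.mono hχ)
  let ψ : Fin (m + 1) → Cm (m + 1) → ℂ := fun j => e.target.indicator fun z =>
    L.ε c * (ml χ f c z * conj ((Real.exp (-K.φ c z) : ℂ) * g c z j))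
  have z0 : ∀ j, ∀ z ∉ e '' tsupport χ, ψ j z = 0 := fun j z hz =>
    indicator_apply_eq_zero.2 fun h => by
      rw [ml, image_eq_zero_of_notMem_tsupport fun k => hz ⟨_, k, e.right_inv h⟩,
        Complex.ofReal_zero, zero_mul, zero_mul, mul_zero]
  have z1 : ∀ j, ∀ z ∉ e '' tsupport χ, ψ j =ᶠ[𝓝 z] fun _ => 0 := fun j z hz =>
    (hK.isClosed.isOpen_compl.eventually_mem hz).mono (z0 j)
  have z2 : ∀ j, ∀ z ∉ e '' tsupport χ, dzb j (ψ j) z = 0 := fun j z hz => by
    rw [INT.dzb_congr (z1 j z hz), INT.dzb_const]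
  have tg : ∀ z ∉ e.target, z ∉ e '' tsupport χ := fun z hz ⟨y, a, b⟩ =>
    hz (b ▸ e.map_source (hχ a))
  have s1 : ∀ j, ∀ z ∈ e.target,
      ContDiffAt ℝ ∞ (fun y => conj ((Real.exp (-K.φ c y) : ℂ) * g c y j)) z := fun j z hz =>
    (Complex.conjCLE : ℂ →L[ℝ] ℂ).contDiff.contDiffAt.comp z
      ((ofReal_contDiffAt (K.φsm c z hz).neg.exp).mul (contDiffAt_pi.1 (sg c z hz) j))
  have ev : ∀ j, ∀ z ∈ e.target, ψ j =ᶠ[𝓝 z] fun z =>
      L.ε c * (ml χ f c z * conj ((Real.exp (-K.φ c z) : ℂ) * g c z j)) := fun j z hz =>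
    (e.open_target.eventually_mem hz).mono fun _ h => indicator_of_mem h _
  have sψ : ∀ j, ContDiff ℝ ∞ (ψ j) := fun j => contDiff_iff_contDiffAt.2 fun z => by
    by_cases h : z ∈ e.target
    · exact (contDiffAt_const.mul ((sf' c z h).mul (s1 j z h))).congr_of_eventuallyEq (ev j z h)
    · exact contDiffAt_const.congr_of_eventuallyEq (z1 j z (tg z h))
  have cψ : ∀ j, HasCompactSupport (ψ j) := fun j => .intro hK (z0 j)
  have i1 : ∀ j, Integrable fun z => dzb j (ψ j) z / L.pr c z := fun j =>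
    cp_int hC (L.inj _ c) (contDiff_iff_contDiffAt.2 fun z => INT.smooth_dzb (sψ j).contDiffAt)
      (.intro hK (z2 j))
  obtain ⟨a1, a2⟩ := chart' (I _) c (F := dV K (L.dp (ml χ f)) g) (fun y hy => by
      refine mul_eq_zero_of_right _ (Finset.sum_eq_zero fun j _ => mul_eq_zero_of_left ?_ _)
      rw [Lad.dp, if_pos (It.ix_tg y), INT.dzb_congr (G := fun _ => 0) ?_, INT.dzb_const, mul_zero,
        zero_div]
      filter_upwards [((K.e _).continuousAt_symm (It.ix_tg y)).eventually
        ((isClosed_tsupport χ).isOpen_compl.mem_nhds (by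
          rw [(K.e _).left_inv (ix_src K y)]; exact fun h => hy (hχ h)))] with z a
      rw [ml, image_eq_zero_of_notMem_tsupport a, Complex.ofReal_zero, zero_mul])
    (integrable_finsetSum Finset.univ fun j _ => i1 j)
    (fun z hz => Finset.sum_eq_zero fun j _ => by rw [z2 j z (tg z hz), zero_div])
    fun z hz => by
      have h1 := e.map_target hz
      have h2 := congrArg conj (hd c z hz)
      have d1 := (sf' c z hz).differentiableAt (by simp)
      have d2 := fun j => (s1 j z hz).differentiableAt (by simp)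
      simp only [map_sum, ← INT.dzb_conj, map_zero] at h2
      rw [dV_eq h1 hg fun j => (L.cov_dp nf sf').chg c j _ h1, e.right_inv hz, ← Finset.sum_div,
        Finset.sum_congr rfl fun j _ => (INT.dzb_congr (ev j z hz)).trans
          ((INT.dzb_const_mul _ (d1.mul (d2 j))).trans (congrArg _ (INT.dzb_mul d1 (d2 j)))),
        ← Finset.mul_sum, Finset.sum_add_distrib, ← Finset.mul_sum, h2, mul_zero, add_zero, wt,
        mul_right_comm, div_mul_cancel₀ _ (K.wpos c z hz).det_pos.ne', Finset.mul_sum,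
        Finset.mul_sum, Finset.sum_div]
      refine Finset.sum_congr rfl fun j _ => ?_
      rw [Lad.dp, if_pos hz, map_mul, Complex.conj_ofReal]
      ring
  have b0 : ∀ i y, (∀ hi : i ∈ L.lab y, L.up y hi ∉ e.source) → br χ b g i y = 0 := fun i y h => by
    rw [br]
    split_ifs with hi
    · rw [image_eq_zero_of_notMem_tsupport fun k => h hi (hχ k), Complex.ofReal_zero, zero_mul]
    · rfl
  have b1 : ∀ i k (h : L.co c i = some k), Integrable (br χ b g i) (L.K m).μ ∧
      ∫ y, br χ b g i y ∂(L.K m).μ = ∫ v, ψ k (ins k v) / L.pr (L.sl c h) v := fun i k h =>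
    chart' (I m) (L.sl c h) (fun y hy => b0 i y fun hi k' => hy ((L.sl_src m c i k h y).2 ⟨hi, k'⟩))
      (cp_int hC (L.inj _ _) ((sψ k).comp (ins_sm k)) ((cψ k).comp_isClosedEmbedding (ins_emb k)))
      (fun v hv => by
        rw [L.sl_tg] at hv
        rw [z0 k _ (tg _ hv), zero_div])
      fun v hv => by
        let s := L.sl c h
        have h1 := ((L.K m).e s).map_target hv
        let y := ((L.K m).e s).symm v
        obtain ⟨hi, h2⟩ := (L.sl_src m c i k h y).1 h1
        have h3 : (L.K m).e s y = v := ((L.K m).e s).right_inv hv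
        have h4 : e (L.up y hi) = ins k v := h3 ▸ L.sl_e m c i k h y h1 hi
        have h5 : ∀ c', y ∈ ((L.K m).e c').source → L.rt g c' y hi (K.ix (L.up y hi)) =
            ta (L.K m) c' s y * (L.ε c * L.ε s * g c (ins k v) k) := fun c' h' => by
          rw [R.rt_eq m g hg c' y i hi _ c (ix_src K _) h2 h', rt_one h, ← h4]
        have h6 : f c (ins k v) = L.nm m b s v := by
          rw [← h4, hV c _ h2 ⟨y, (L.up_pt m y i hi).symm⟩, L.up_pt, Lad.nm, L.sl_bs]
        rw [br, dif_pos hi, dS_eq h1 (fun j => (L.top_fm hb).chg s j y h1) fun j hj => by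
          rw [h5 s h1, h5 j hj, ta_coc h1 hj h1, mul_assoc], h5 s h1, ta_self h1, h3, Lad.fm,
          if_pos hv]
        simp only [ψ]
        rw [indicator_of_mem (h4 ▸ e.map_source h2), ml, h6, ← h4, e.left_inv h2, h4,
          ← L.sl_φ m c i k h v hv, wt]
        simp only [map_mul, L.eps_conj, Complex.conj_ofReal, one_mul]
        have := ((L.K m).wpos s v hv).det_pos.ne'
        field_simp
        rw [sq, L.eps]
        simp only [s, y]
        ring
  refine ⟨a1, fun i => ?_, ?_⟩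
  · rcases h : L.co c i with _ | k
    · exact (funext fun y => b0 i y (L.nb m c i h y) : br χ b g i = fun _ => 0) ▸ integrable_zero ..
    · exact (b1 i k h).1
  rw [pV, a2, integral_finsetSum _ fun j _ => i1 j]
  refine sum_lab (L.inj _ c) (fun j => (hC m κ _ (L.inj _ c) _ (sψ j) (cψ j) j).2.1)
    (fun i j h => ?_) fun i h => ?_
  · rw [(b1 i j h).2]
    refine ((hC m κ _ (L.inj _ c) _ (sψ j) (cψ j) j).2.2 i h).trans ?_
    simp only [L.pr_erase c h]
  · simp only [b0 i _ (L.nb m c i h _), integral_zero, mul_zero]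

end Rz

open Rz in
theorem stRes' (hI : Ha.StInt) (hR : StRs) (hC : StCp) : StRes := by
  intro κ V _ _ n L m f b g hf sf hb _ hv hg sg hd
  have I : ∀ m, Ha.Int (L.K m) := fun m => hI _ _ _
  let K := L.K (m + 1)
  obtain ⟨s, χ, h1, h2, -, h4⟩ := (I (m + 1)).pou _ fun x =>
    (K.e _).open_source.mem_nhds (ix_src K x)
  have H := fun x => loc I (hR _ _ _ L) hC hf sf hb hv hg sg hd (h4 x) (h1 x)
  have e : ∀ c, f c = fun z => ∑ x ∈ s, ml (χ x) f c z := fun i => funext fun z => by
    simp only [ml]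
    rw [← Finset.sum_mul, ← Complex.ofReal_sum, h2, Complex.ofReal_one, one_mul]
  have e1 : dV K (L.dp f) g = fun y => ∑ x ∈ s, dV K (L.dp (ml (χ x) f)) g y := funext fun y => by
    simp only [K, dV, Lad.dp, if_pos (It.ix_tg y)]
    rw [← Finset.mul_sum, Finset.sum_comm]
    refine congrArg _ (Finset.sum_congr rfl fun j _ => ?_)
    rw [← Finset.sum_mul, ← Finset.sum_div, ← Finset.mul_sum, e,
      INT.dzb_sum (F := fun x => ml (χ x) f _) _ fun x _ => ((ofReal_contDiffAt
        (h4 x _ _ (It.ix_tg y))).mul (sf _ _ (It.ix_tg y))).differentiableAt (by simp)]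
  have e2 : dS _ (L.fm (L.nm m b)) (L.rs g) = fun y => ∑ x ∈ s, ∑ i, br (χ x) b g i y :=
    funext fun y => by
      rw [Finset.sum_comm, dS, Lad.rs, if_pos (It.ix_tg y), ((L.K m).e _).left_inv (ix_src _ y),
        Lad.rp, map_sum, Finset.mul_sum, Finset.mul_sum]
      refine Finset.sum_congr rfl fun i _ => ?_
      simp only [br]
      split_ifs with hi
      · rw [← Finset.sum_mul, ← Complex.ofReal_sum, h2, Complex.ofReal_one, one_mul, dS]
      · simp
  rw [pV, pS, e1, e2, integral_finsetSum _ fun x _ => (H x).1,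
    integral_finsetSum _ fun x _ => integrable_finsetSum _ fun i _ => (H x).2.1 i, Finset.mul_sum]
  refine Finset.sum_congr rfl fun x _ => (H x).2.2.trans ?_
  rw [integral_finsetSum _ fun i _ => (H x).2.1 i, Finset.mul_sum]

theorem stRes (_ : Ha.StApi) (hI : Ha.StInt) (hR : StRs) (_ : StGl) (hC : StCp) : StRes :=
  stRes' hI hR hC

end Vale.Agent.P281Z.Lg
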