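import Vale.Agent.P281Z.Lg.Bas

/-!
# P281Z, block LG, row RS: the restriction maps
-/

open scoped Manifold ContDiff Topology ComplexConjugate
open Filter Set

noncomputable section

namespace Vale.Agent.P281Z.Lg

open Vale.Agent.P272.K Vale.Agent.P284.H608.K Vale.Agent.P281Z.Ha Vale.Agent.P284.H205.K

/-- the differential of the identity `z k * A = F k' * B` on the hyperplane -/
theorem row_der {m : ℕ} {F : Cm m → Cm m} {A B : Cm m → ℂ} {z : Cm m} {k k' : Fin m}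
    (hF : AnalyticAt ℂ F z) (hA : AnalyticAt ℂ A z) (hB : AnalyticAt ℂ B z) (h0 : z k = 0)
    (h0' : F z k' = 0) (h : ∀ᶠ w in 𝓝 z, w k * A w = F w k' * B w) (b : Fin m) :
    (Pi.single b 1 : Cm m) k * A z = Jm (fderiv ℂ F z) k' b * B z := by
  have h1 := (hasFDerivAt_apply (𝕜 := ℂ) k z).fun_mul hA.differentiableAt.hasFDerivAt
  have h2 := (hasFDerivAt_pi'.1 hF.differentiableAt.hasFDerivAt k').fun_mul
    hB.differentiableAt.hasFDerivAt
  have h3 := DFunLike.congr_fun ((h2.congr_of_eventuallyEq h).unique h1) (Pi.single b 1)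
  have h4 : F z k' * fderiv ℂ B z (Pi.single b 1) + B z * fderiv ℂ F z (Pi.single b 1) k' =
    z k * fderiv ℂ A z (Pi.single b 1) + A z * (Pi.single b 1 : Cm m) k := h3
  rw [h0, h0'] at h4
  rw [Jm_apply]
  linear_combination -h4

theorem jac_an {n : ℕ} {M : Type} [TopologicalSpace M] [MeasurableSpace M] {K : KA n M}
    {i j : K.I} {z : Cm n} (hz : z ∈ (K.e i).target) (hj : (K.e i).symm z ∈ (K.e j).source)
    (c b : Fin n) : AnalyticAt ℂ (fun y => jacM (K.e i) (K.e j) ((K.e i).symm y) c b) z := by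
  refine (analyticAt_pi_iff.1 (((ContinuousLinearMap.apply ℂ (Cm n) (Pi.single b 1)).analyticAt
    _).comp (K.hol i j z hz hj).fderiv) c).congr ?_
  filter_upwards [near_two hz hj] with y hy
  rw [jac_eq hy.1 hy.2, Jm_apply]
  rfl

namespace Lad

variable {κ V : Type} [Fintype κ] [LinearOrder κ] {n : ℕ} (L : Lad κ V n) {m : ℕ}

theorem ex_sl {y : (L.Y m).X} {i : κ} (hi : i ∈ L.lab y) {c : (L.K (m + 1)).I}
    (hc : L.up y hi ∈ ((L.K (m + 1)).e c).source) :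
    ∃ (k : Fin (m + 1)) (h : L.co c i = some k), y ∈ ((L.K m).e (L.sl c h)).source := by
  obtain ⟨k, h⟩ := Option.ne_none_iff_exists'.1 fun h => L.nb m c i h y hi hc
  exact ⟨k, h, (L.sl_src m c i k h y).2 ⟨hi, hc⟩⟩

theorem up_src {y : (L.Y m).X} {i : κ} (hi : i ∈ L.lab y) {c : (L.K (m + 1)).I} {k : Fin (m + 1)}
    {h : L.co c i = some k} (hy : y ∈ ((L.K m).e (L.sl c h)).source) :
    L.up y hi ∈ ((L.K (m + 1)).e c).source := ((L.sl_src m c i k h y).1 hy).2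

theorem symm_ins {y : (L.Y m).X} {i : κ} (hi : i ∈ L.lab y) {c : (L.K (m + 1)).I}
    {k : Fin (m + 1)} {h : L.co c i = some k} (hy : y ∈ ((L.K m).e (L.sl c h)).source) :
    ((L.K (m + 1)).e c).symm (ins k ((L.K m).e (L.sl c h) y)) = L.up y hi := by
  rw [← L.sl_e m c i k h y hy hi, ((L.K (m + 1)).e c).left_inv (L.up_src hi hy)]

theorem lab_near (y : (L.Y m).X) : ∀ᶠ y' in 𝓝 y, L.lab y' = L.lab y := by
  have h1 : ∀ᶠ y' in 𝓝 y, ∀ i ∈ L.lab y, i ∈ L.lab y' := by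
    refine (eventually_all_finset _).2 fun i hi => ?_
    obtain ⟨k, h, hy⟩ := L.ex_sl hi (ix_src _ _)
    filter_upwards [((L.K m).e (L.sl _ h)).open_source.mem_nhds hy] with y' hy'
    exact ((L.sl_src m _ i k h y').1 hy').1
  refine h1.mono fun y' h => (Finset.eq_of_subset_of_card_le h ?_).symm
  have := L.card m y
  have := L.card m y'
  omega

theorem rt_sl (g : Vc (L.K (m + 1))) (c : (L.K m).I) (y : (L.Y m).X) {i : κ} (hi : i ∈ L.lab y)
    {c₁ : (L.K (m + 1)).I} {k : Fin (m + 1)} (h : L.co c₁ i = some k) :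
    L.rt g c y hi c₁ = ta (L.K m) c (L.sl c₁ h) y *
      (L.ε c₁ * L.ε (L.sl c₁ h) * g c₁ ((L.K (m + 1)).e c₁ (L.up y hi)) k) := by
  rw [rt, Finset.sum_eq_single k, dif_pos h]
  · exact fun j _ hj => dif_neg fun h' => hj (Option.some.inj (h'.symm.trans h))
  · exact fun h' => (h' (Finset.mem_univ k)).elim

variable {y : (L.Y m).X} {i : κ} {c₁ c₂ : (L.K (m + 1)).I} {k₁ k₂ : Fin (m + 1)}
  {h₁ : L.co c₁ i = some k₁} {h₂ : L.co c₂ i = some k₂}

theorem row_pt (hi : i ∈ L.lab y) (hy₁ : y ∈ ((L.K m).e (L.sl c₁ h₁)).source)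
    (hy₂ : y ∈ ((L.K m).e (L.sl c₂ h₂)).source)
    (h0 : L.pr (L.sl c₁ h₁) ((L.K m).e (L.sl c₁ h₁) y) ≠ 0) (b : Fin (m + 1)) :
    jacM ((L.K (m + 1)).e c₁) ((L.K (m + 1)).e c₂) (L.up y hi) k₂ b *
      (L.ε c₂ * L.ε (L.sl c₂ h₂) * ta (L.K m) (L.sl c₁ h₁) (L.sl c₂ h₂) y) =
      (Pi.single b 1 : Cm (m + 1)) k₁ *
        (L.ε c₁ * L.ε (L.sl c₁ h₁) * ta (L.K (m + 1)) c₁ c₂ (L.up y hi)) := by
  have u₁ := L.up_src hi hy₁
  have u₂ := L.up_src hi hy₂
  have hz := ((L.K (m + 1)).e c₁).map_source u₁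
  have hj : ((L.K (m + 1)).e c₁).symm ((L.K (m + 1)).e c₁ (L.up y hi)) ∈
      ((L.K (m + 1)).e c₂).source := by rwa [((L.K (m + 1)).e c₁).left_inv u₁]
  have h1 := row_der (k := k₁) (k' := k₂)
    (A := fun z => L.ε c₁ * (∏ l ∈ Finset.univ.erase i, zt (L.co c₁ l) z) *
      ta (L.K (m + 1)) c₁ c₂ (((L.K (m + 1)).e c₁).symm z))
    (B := fun z => L.G (L.bs c₁) (L.bs c₂) (L.pt (((L.K (m + 1)).e c₁).symm z)) *
      (L.ε c₂ * ∏ l ∈ Finset.univ.erase i, zt (L.co c₂ l) (tr (L.K (m + 1)) c₁ c₂ z)))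
    (tr_an u₁ u₂)
    ((analyticAt_const.fun_mul (Finset.analyticAt_fun_prod _ fun l _ => zt_an _ _)).fun_mul
      (ta_hol hz hj))
    ((L.G_an hz hj).fun_mul (analyticAt_const.fun_mul
      (Finset.analyticAt_fun_prod _ fun l _ => (zt_an _ _).comp (tr_an u₁ u₂))))
    (by rw [L.sl_e m c₁ i k₁ h₁ y hy₁ hi, ins_same])
    (by rw [tr_apply u₁, L.sl_e m c₂ i k₂ h₂ y hy₂ hi, ins_same])
    (by
      filter_upwards [near_two hz hj] with z hz
      have h2 := L.rel _ c₁ c₂ _ (((L.K (m + 1)).e c₁).map_target hz.1) hz.2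
      rw [((L.K (m + 1)).e c₁).right_inv hz.1, ← Finset.mul_prod_erase _ _ (Finset.mem_univ i),
        ← Finset.mul_prod_erase _ _ (Finset.mem_univ i), h₁, h₂] at h2
      simp only [zt, Option.elim_some] at h2
      simp only [zt, tr]
      linear_combination h2) b
  rw [← jac_eq hz hj, ((L.K (m + 1)).e c₁).left_inv u₁, tr_apply u₁,
    L.sl_e m c₁ i k₁ h₁ y hy₁ hi, L.sl_e m c₂ i k₂ h₂ y hy₂ hi, L.pr_erase c₁ h₁,
    L.pr_erase c₂ h₂, L.up_pt] at h1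
  have h2 := L.rel m _ _ y hy₁ hy₂
  rw [L.sl_bs, L.sl_bs] at h2
  refine mul_left_cancel₀ (mul_ne_zero h0 (L.eps_ne (L.sl c₁ h₁))) ?_
  simp only [pr] at h1 ⊢
  linear_combination (jacM ((L.K (m + 1)).e c₁) ((L.K (m + 1)).e c₂) (L.up y hi) k₂ b *
    L.ε c₂ * L.ε (L.sl c₂ h₂)) * h2 - h1 +
    (jacM ((L.K (m + 1)).e c₁) ((L.K (m + 1)).e c₂) (L.up y hi) k₂ b * L.ε c₂ *
      L.G (L.bs c₁) (L.bs c₂) (L.pt y) * ∏ l, zt (L.co (L.sl c₂ h₂) l)
        ((L.K m).e (L.sl c₂ h₂) y)) * L.eps m (L.sl c₂ h₂) -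
    ((Pi.single b 1 : Cm (m + 1)) k₁ * L.ε c₁ * ta (L.K (m + 1)) c₁ c₂ (L.up y hi) *
      ∏ l, zt (L.co (L.sl c₁ h₁) l) ((L.K m).e (L.sl c₁ h₁) y)) * L.eps m (L.sl c₁ h₁)

theorem row (hi : i ∈ L.lab y) (hy₁ : y ∈ ((L.K m).e (L.sl c₁ h₁)).source)
    (hy₂ : y ∈ ((L.K m).e (L.sl c₂ h₂)).source) (b : Fin (m + 1)) :
    jacM ((L.K (m + 1)).e c₁) ((L.K (m + 1)).e c₂) (L.up y hi) k₂ b *
      (L.ε c₂ * L.ε (L.sl c₂ h₂) * ta (L.K m) (L.sl c₁ h₁) (L.sl c₂ h₂) y) =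
      (Pi.single b 1 : Cm (m + 1)) k₁ *
        (L.ε c₁ * L.ε (L.sl c₁ h₁) * ta (L.K (m + 1)) c₁ c₂ (L.up y hi)) := by
  have hv := ((L.K m).e (L.sl c₁ h₁)).map_source hy₁
  have hw : ((L.K m).e (L.sl c₁ h₁)).symm ((L.K m).e (L.sl c₁ h₁) y) ∈
      ((L.K m).e (L.sl c₂ h₂)).source := by rwa [((L.K m).e (L.sl c₁ h₁)).left_inv hy₁]
  have hz : ins k₁ ((L.K m).e (L.sl c₁ h₁) y) ∈ ((L.K (m + 1)).e c₁).target := by
    rwa [L.sl_tg] at hv
  have hj : ((L.K (m + 1)).e c₁).symm (ins k₁ ((L.K m).e (L.sl c₁ h₁) y)) ∈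
      ((L.K (m + 1)).e c₂).source := by
    rw [L.symm_ins hi hy₁]
    exact L.up_src hi hy₂
  have h1 := tendsto_nhds_unique_of_frequently_eq
    ((((jac_an hz hj k₂ b).comp (ins_an _ _)).fun_mul
      ((analyticAt_const (v := L.ε c₂ * L.ε (L.sl c₂ h₂))).fun_mul (ta_hol hv hw))).continuousAt)
    (((analyticAt_const (v := (Pi.single b 1 : Cm (m + 1)) k₁)).fun_mul
      ((analyticAt_const (v := L.ε c₁ * L.ε (L.sl c₁ h₁))).fun_mul
        ((ta_hol hz hj).comp (ins_an _ _)))).continuousAt)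
    (((mem_closure_iff_frequently.1 (L.dense_pr (L.sl c₁ h₁) _)).and_eventually
      (near_two hv hw)).mono fun v hv => by
        have a₁ := ((L.K m).e (L.sl c₁ h₁)).map_target hv.2.1
        have a₂ := ((L.K m).e (L.sl c₁ h₁)).right_inv hv.2.1
        have hi' := ((L.sl_src m _ i _ h₁ _).1 a₁).1
        have h2 := L.row_pt hi' a₁ hv.2.2 (by rw [a₂]; exact hv.1) b
        rw [← L.symm_ins hi' a₁, a₂] at h2
        exact h2)
  simp only [Function.comp] at h1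
  rwa [L.symm_ins hi hy₁, ((L.K m).e (L.sl c₁ h₁)).left_inv hy₁] at h1

theorem rt_eq {g : Vc (L.K (m + 1))} (hg : Vec _ g) {c : (L.K m).I} (hi : i ∈ L.lab y)
    (u₁ : L.up y hi ∈ ((L.K (m + 1)).e c₁).source) (u₂ : L.up y hi ∈ ((L.K (m + 1)).e c₂).source)
    (hy : y ∈ ((L.K m).e c).source) : L.rt g c y hi c₁ = L.rt g c y hi c₂ := by
  obtain ⟨k₁, h₁, hy₁⟩ := L.ex_sl hi u₁
  obtain ⟨k₂, h₂, hy₂⟩ := L.ex_sl hi u₂
  rw [L.rt_sl g c y hi h₁, L.rt_sl g c y hi h₂, ta_coc hy hy₁ hy₂, mul_assoc (ta _ c _ y)]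
  refine congrArg _ (mul_left_cancel₀ (ta_ne u₁ u₂) ?_)
  have h1 := congrArg (· * (L.ε c₂ * L.ε (L.sl c₂ h₂) * ta (L.K m) (L.sl c₁ h₁) (L.sl c₂ h₂) y))
    (hg.chg c₁ c₂ _ u₁ u₂ k₂)
  simp only [Finset.sum_mul, mul_right_comm _ (g c₁ _ _), L.row hi hy₁ hy₂, Pi.single_apply,
    ite_mul, zero_mul, Finset.sum_ite_eq, Finset.mem_univ, if_true] at h1
  linear_combination h1

theorem rs_eq (g : Vc (L.K (m + 1))) {c : (L.K m).I} {z : Cm m} (hz : z ∈ ((L.K m).e c).target) :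
    L.rs g c z = L.rp g c (((L.K m).e c).symm z) := if_pos hz

theorem rs_top (g : Vc (L.K (m + 1))) : Top _ (L.rs g) := by
  refine ⟨fun c c' y h h' => ?_, fun _ _ hz => if_neg hz⟩
  rw [L.rs_eq g (((L.K m).e c).map_source h), L.rs_eq g (((L.K m).e c').map_source h'),
    ((L.K m).e c).left_inv h, ((L.K m).e c').left_inv h', rp, rp, Finset.mul_sum]
  refine Finset.sum_congr rfl fun i _ => ?_
  split_ifs with hi
  · obtain ⟨k, hk, hy⟩ := L.ex_sl hi (ix_src _ _)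
    rw [L.rt_sl g c y hi hk, L.rt_sl g c' y hi hk, ta_coc h h' hy, mul_assoc]
  · exact (mul_zero _).symm

/-- the local form of the restriction -/
theorem rs_loc {g : Vc (L.K (m + 1))} (hg : Vec _ g) {c : (L.K m).I} {z : Cm m}
    (hz : z ∈ ((L.K m).e c).target) {P : (Cm m → ℂ) → Prop} (h0 : P 0)
    (ha : ∀ f f', P f → P f' → P (f + f')) (hc : ∀ f f', P f → f' =ᶠ[𝓝 z] f → P f')
    (hP : ∀ (a : Cm m → ℂ) (F : Cm m → Cm (m + 1)) c₁ k, AnalyticAt ℂ a z → AnalyticAt ℂ F z →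
      F z ∈ ((L.K (m + 1)).e c₁).target → P fun w => a w * g c₁ (F w) k) : P (L.rs g c) := by
  refine hc (∑ i, fun w => if hi : i ∈ L.lab (((L.K m).e c).symm w) then
    L.rt g c _ hi ((L.K (m + 1)).ix (L.up _ hi)) else 0) _
    (Finset.sum_induction _ P ha h0 fun i _ => ?_) ?_
  · by_cases hi : i ∈ L.lab (((L.K m).e c).symm z)
    · obtain ⟨c₁, hu⟩ := (L.K (m + 1)).cover (L.up _ hi)
      obtain ⟨k, hk, hy⟩ := L.ex_sl hi hu
      refine hc _ _ (hP (fun w => ta (L.K m) c (L.sl _ hk) (((L.K m).e c).symm w) *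
        (L.ε c₁ * L.ε (L.sl _ hk))) (fun w => ins k (tr (L.K m) c (L.sl _ hk) w)) c₁ k
        ((ta_hol hz hy).fun_mul analyticAt_const)
        ((ins_an _ _).comp ((L.K m).hol _ _ z hz hy)) ?_) ?_
      · have h1 := ((L.K m).e (L.sl _ hk)).map_source hy
        rwa [L.sl_tg] at h1
      · filter_upwards [near_two hz hy] with w hw
        have hi' := ((L.sl_src m _ i _ hk _).1 hw.2).1
        rw [dif_pos hi', L.rt_eq hg hi' (ix_src _ _) (L.up_src hi' hw.2)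
          (((L.K m).e c).map_target hw.1), L.rt_sl g c _ hi' hk, L.sl_e m _ i k hk _ hw.2 hi',
          ← mul_assoc]
        rfl
    · refine hc _ _ h0 ?_
      filter_upwards [(((L.K m).e c).continuousAt_symm hz).eventually (L.lab_near _)] with w hw
      exact dif_neg (hw ▸ hi)
  · filter_upwards [((L.K m).e c).open_target.mem_nhds hz] with w hw
    rw [L.rs_eq g hw, Finset.sum_apply]
    rfl

theorem rs_sm {g : Vc (L.K (m + 1))} (hg : Vec _ g) (hs : Sm _ g) : Sm _ (L.rs g) :=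
  fun _ z hz => L.rs_loc hg hz (P := fun f => ContDiffAt ℝ ∞ f z) contDiffAt_const
    (fun _ _ h h' => h.add h') (fun _ _ h h' => h.congr_of_eventuallyEq h')
    fun _ _ c₁ k ha hF h => (an_sm ha).mul
      (contDiffAt_pi.1 ((hs c₁ _ h).comp z (an_sm hF)) k)

theorem rs_hl {g : Vc (L.K (m + 1))} (hg : Vec _ g) (hs : Hl _ g) : Hl _ (L.rs g) :=
  fun _ z hz => L.rs_loc hg hz (P := fun f => AnalyticAt ℂ f z) analyticAt_const
    (fun _ _ h h' => h.add h') (fun _ _ h h' => h.congr h'.symm)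
    fun _ _ c₁ k ha hF h => ha.fun_mul (analyticAt_pi_iff.1 ((hs c₁ _ h).comp hF) k)

theorem rs_add (g g' : Vc (L.K (m + 1))) : L.rs (g + g') = L.rs g + L.rs g' := by
  funext c z
  simp only [rs, rp, rt, Pi.add_apply]
  split_ifs
  · rw [← Finset.sum_add_distrib]
    refine Finset.sum_congr rfl fun i _ => ?_
    split_ifs
    · rw [← Finset.sum_add_distrib]
      refine Finset.sum_congr rfl fun k _ => ?_
      split_ifs <;> ring
    · ring
  · ring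

theorem rs_smul (a : ℂ) (g : Vc (L.K (m + 1))) : L.rs (a • g) = a • L.rs g := by
  funext c z
  simp only [rs, rp, rt, Pi.smul_apply, smul_eq_mul]
  split_ifs
  · rw [Finset.mul_sum]
    refine Finset.sum_congr rfl fun i _ => ?_
    split_ifs
    · rw [Finset.mul_sum]
      refine Finset.sum_congr rfl fun k _ => ?_
      split_ifs <;> ring
    · ring
  · ring

theorem rs_tw (H : L.Hy) (g : Vc (L.K (m + 1))) :
    H.lad.rs ((H.T (m + 1)).mul g) = (H.T m).mul (L.rs g) := by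
  funext c z
  show _ = (H.T m).σ c z * L.rs g c z
  by_cases hz : z ∈ ((L.K m).e c).target
  · have hy := ((L.K m).e c).map_target hz
    rw [H.lad.rs_eq _ hz, L.rs_eq g hz, rp, rp, Finset.mul_sum]
    refine Finset.sum_congr rfl fun i _ => ?_
    by_cases hi : i ∈ L.lab (((L.K m).e c).symm z)
    · obtain ⟨k, hk, hs⟩ := L.ex_sl hi (ix_src _ _)
      have h1 := (H.T m).σch c _ _ hy hs
      rw [H.σ_eq m _ _ hs, L.sl_bs, ← L.up_pt m _ i hi, ← H.σ_eq _ _ _ (ix_src _ _)] at h1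
      rw [dif_pos hi, dif_pos hi, L.rt_sl g c _ hi hk]
      refine (H.lad.rt_sl _ c _ hi hk).trans ?_
      rw [ta_tw]
      have h2 := ((L.K m).e c).right_inv hz
      rw [h2] at h1 ⊢
      rw [h1]
      simp only [Twi.mul, Pi.smul_apply, smul_eq_mul, KA.ix]
      ring
    · rw [dif_neg hi, dif_neg hi, mul_zero]
  · rw [(H.lad.rs_top _).off c z hz, (L.rs_top g).off c z hz, mul_zero]

end Lad

variable {κ V : Type} [Fintype κ] [LinearOrder κ] {n : ℕ}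

theorem rs_all (L : Lad κ V n) : Rs L where
  rt_eq _ _ hg _ _ _ hi _ _ := L.rt_eq hg hi
  top _ g _ := L.rs_top g
  sm _ _ := L.rs_sm
  hl _ _ := L.rs_hl
  add _ := L.rs_add
  smul _ := L.rs_smul
  tw _ H g _ := L.rs_tw H g
  lab _ := L.lab_near

/-- row RS -/
theorem stRs : StRs := fun _ _ _ _ _ L => rs_all L

end Vale.Agent.P281Z.Lg
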