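import Vale.Agent.P281Z.Ha.Api
import Vale.Agent.P281Z.Ha.Int
import Vale.Agent.P281Z.Lg.Rs
import Vale.Agent.P281Z.Lg.Gl
import Vale.Agent.P281Z.Lg.Cp
import Vale.Agent.P281Z.Lg.Res
import Vale.Agent.P281Z.Lg.Exl
import Vale.Agent.P281Z.Lg.Lift
import Vale.Agent.P281Z.Lg.B1
import Vale.Agent.P281Z.Lg.B2
import Vale.Agent.P281Z.Lg.B3

/-!
# P281Z, block LG: the output, from the harmonic theory
-/

namespace Vale.Agent.P281Z.Lg

theorem gl : StGl := stGl Ha.stApi (Ha.stInt Ha.stApi) stCp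

theorem res : StRes := stRes' (Ha.stInt Ha.stApi) stRs stCp

theorem lift : StLift := stLift Ha.stApi (Ha.stInt Ha.stApi) gl stExl

theorem b1_of (hO : Ha.Out) : StB1 := stB1 hO gl lift res

theorem b2_of (hO : Ha.Out) : StB2 := stB2 hO stRs gl (b1_of hO)

theorem b3_of (hO : Ha.Out) : StB3 := stB3 hO stRs gl lift res

end Vale.Agent.P281Z.Lg
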