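import Vale.Agent.P281Z.Ha.All
import Vale.Agent.P281Z.Lg.Out

/-!
# P281Z, block LG: the output
-/

namespace Vale.Agent.P281Z.Lg

theorem b1 : StB1 := b1_of Ha.out

theorem b2 : StB2 := b2_of Ha.out

theorem b3 : StB3 := b3_of Ha.out

end Vale.Agent.P281Z.Lg
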