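import Vale.Agent.P281Z.Lg.Defs
import Vale.Agent.P281Z.Ha.Api

/-!
# P281Z, block LG: first facts on the strata
-/

open scoped Manifold ContDiff Topology ComplexConjugate
open Filter Set

noncomputable section

namespace Vale.Agent.P281Z.Lg

open Vale.Agent.P272.K Vale.Agent.P284.H608.K Vale.Agent.P281Z.Ha Vale.Agent.P284.H205.K

theorem ins_same {m : ℕ} (k : Fin (m + 1)) (v : Cm m) : ins k v k = 0 :=
  Fin.insertNth_apply_same (α := fun _ => ℂ) k 0 v

theorem ins_succ {m : ℕ} (k : Fin (m + 1)) (v : Cm m) (j : Fin m) :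
    ins k v (k.succAbove j) = v j :=
  Fin.insertNth_apply_succAbove (α := fun _ => ℂ) k 0 v j

theorem ins_an {m : ℕ} (k : Fin (m + 1)) (v : Cm m) : AnalyticAt ℂ (ins k) v := by
  refine analyticAt_pi_iff.2 fun j => ?_
  refine k.succAboveCases ?_ (fun j => ?_) j
  · simp only [ins_same]
    exact analyticAt_const
  · simp only [ins_succ]
    exact (ContinuousLinearMap.proj (R := ℂ) (φ := fun _ : Fin m => ℂ) j).analyticAt v

theorem zt_an {m : ℕ} (o : Option (Fin m)) (z : Cm m) : AnalyticAt ℂ (zt o) z := by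
  cases o with
  | none => exact analyticAt_const
  | some j => exact (ContinuousLinearMap.proj (R := ℂ) (φ := fun _ : Fin m => ℂ) j).analyticAt z

namespace Lad

variable {κ V : Type} [Fintype κ] [LinearOrder κ] {n : ℕ} (L : Lad κ V n) {m : ℕ}

theorem eps_ne (c : (L.K m).I) : L.ε c ≠ 0 := left_ne_zero_of_mul_eq_one (L.eps m c)

theorem eps_conj (c : (L.K m).I) : conj (L.ε c) = L.ε c := by
  rcases mul_self_eq_one_iff.1 (L.eps m c) with h | h <;> simp [h]

theorem G_ne {β β' : L.B} {x : V} (h : x ∈ L.U β) (h' : x ∈ L.U β') : L.G β β' x ≠ 0 :=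
  left_ne_zero_of_mul_eq_one ((L.coc β β' β x h h' h).symm.trans (L.self β x h))

theorem pr_an (c : (L.K m).I) (z : Cm m) : AnalyticAt ℂ (L.pr c) z :=
  Finset.analyticAt_fun_prod _ fun _ _ => zt_an _ z

theorem pr_ins (c : (L.K (m + 1)).I) {i : κ} {k : Fin (m + 1)} (h : L.co c i = some k)
    (v : Cm m) : L.pr c (ins k v) = 0 :=
  Finset.prod_eq_zero (Finset.mem_univ i) (by rw [h]; exact ins_same k v)

theorem co_sl (c : (L.K (m + 1)).I) {i : κ} {k : Fin (m + 1)} (h : L.co c i = some k) :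
    L.co (L.sl c h) i = none :=
  Option.eq_none_iff_forall_ne_some.2 fun k' h' =>
    Fin.succAbove_ne k k' (Option.some.inj (((L.sl_co m c i k h i k').1 h').symm.trans h))

theorem zt_ins (c : (L.K (m + 1)).I) {i : κ} {k : Fin (m + 1)} (h : L.co c i = some k) {l : κ}
    (hl : l ≠ i) (v : Cm m) : zt (L.co c l) (ins k v) = zt (L.co (L.sl c h) l) v := by
  cases h1 : L.co c l with
  | none =>
    rw [Option.eq_none_iff_forall_ne_some.2 fun k' h' =>
      Option.some_ne_none _ (((L.sl_co m c i k h l k').1 h').symm.trans h1)]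
    rfl
  | some j =>
    obtain ⟨j, rfl⟩ := Fin.exists_succAbove_eq (x := j) (y := k)
      fun h2 => hl (L.inj _ c l i k (h2 ▸ h1) h)
    rw [(L.sl_co m c i k h l j).2 h1]
    exact ins_succ k v j

theorem pr_erase [DecidableEq κ] (c : (L.K (m + 1)).I) {i : κ} {k : Fin (m + 1)}
    (h : L.co c i = some k) (v : Cm m) :
    ∏ l ∈ Finset.univ.erase i, zt (L.co c l) (ins k v) = L.pr (L.sl c h) v := by
  rw [pr, ← Finset.mul_prod_erase _ _ (Finset.mem_univ i), L.co_sl c h]
  exact (Finset.prod_congr rfl fun l hl => L.zt_ins c h (Finset.ne_of_mem_erase hl) v).trans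
    (one_mul _).symm

theorem dense_pr (c : (L.K m).I) : Dense {z | L.pr c z ≠ 0} := by
  refine (dense_pi (s := fun _ : Fin m => ({0}ᶜ : Set ℂ)) univ
    fun _ _ => dense_compl_singleton 0).mono fun z hz => Finset.prod_ne_zero_iff.2 fun l _ => ?_
  cases L.co c l with
  | none => exact one_ne_zero
  | some j => exact hz j (mem_univ j)

theorem pr_zero {c c' : (L.K m).I} {y : (L.Y m).X} (h : y ∈ ((L.K m).e c).source)
    (h' : y ∈ ((L.K m).e c').source) :
    L.pr c ((L.K m).e c y) = 0 ↔ L.pr c' ((L.K m).e c' y) = 0 := by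
  have h1 := congrArg (· = 0) (L.rel m c c' y h h')
  simpa [L.eps_ne, ta_ne h h', L.G_ne (L.mem m c y h) (L.mem m c' y h'), pr] using h1

/-- the change of frames after the division by the equation of the boundary -/
theorem div_chg {c c' : (L.K m).I} {y : (L.Y m).X} (h : y ∈ ((L.K m).e c).source)
    (h' : y ∈ ((L.K m).e c').source) (t : ℂ) :
    L.ε c * (L.G (L.bs c) (L.bs c') (L.pt y) * t) / L.pr c ((L.K m).e c y) =
      ta (L.K m) c c' y * (L.ε c' * t / L.pr c' ((L.K m).e c' y)) := by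
  by_cases h0 : L.pr c ((L.K m).e c y) = 0
  · rw [h0, (L.pr_zero h h').1 h0, div_zero, div_zero, mul_zero]
  · have h1 := L.rel m c c' y h h'
    rw [← mul_div_assoc, div_eq_div_iff h0 (mt (L.pr_zero h h').2 h0), pr, pr]
    linear_combination -(t * L.ε c * L.ε c') * h1 +
      t * L.ε c' * (∏ l, zt (L.co c l) ((L.K m).e c y)) * ta (L.K m) c c' y * L.eps m c -
      t * L.ε c * L.G (L.bs c) (L.bs c') (L.pt y) * (∏ l, zt (L.co c' l) ((L.K m).e c' y)) *
        L.eps m c'

theorem top_fm {f : Sc (L.K m)} (hf : L.Num f) : Top _ (L.fm f) :=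
  ⟨fun c c' y h h' => by
    rw [fm, fm, if_pos (((L.K m).e c).map_source h), if_pos (((L.K m).e c').map_source h'),
      hf c c' y h h', L.div_chg h h'], fun _ _ hz => if_neg hz⟩

theorem G_an {c c' : (L.K m).I} {z : Cm m} (hz : z ∈ ((L.K m).e c).target)
    (h' : ((L.K m).e c).symm z ∈ ((L.K m).e c').source) :
    AnalyticAt ℂ (fun z => L.G (L.bs c) (L.bs c') (L.pt (((L.K m).e c).symm z))) z :=
  L.hol m c _ _ z hz (L.mem m c _ (((L.K m).e c).map_target hz)) (L.mem m c' _ h')

theorem dzb_num {f : Sc (L.K m)} (hf : L.Num f) (hs : Sm _ f) {c c' : (L.K m).I} {y : (L.Y m).X}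
    (h : y ∈ ((L.K m).e c).source) (h' : y ∈ ((L.K m).e c').source) (b : Fin m) :
    dzb b (f c) ((L.K m).e c y) = L.G (L.bs c) (L.bs c') (L.pt y) *
      ∑ j, conj (jacM ((L.K m).e c) ((L.K m).e c') y j b) * dzb j (f c') ((L.K m).e c' y) := by
  have hz := ((L.K m).e c).map_source h
  have hj : ((L.K m).e c).symm ((L.K m).e c y) ∈ ((L.K m).e c').source := by
    rwa [((L.K m).e c).left_inv h]
  have h1 := dzb_chg (q := f c') (tr_an h h') (L.G_an hz hj) (by
    rw [tr_apply h]
    exact (hs c' _ (((L.K m).e c').map_source h')).differentiableAt (by simp)) b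
  rw [← jac_eq hz hj, ((L.K m).e c).left_inv h, tr_apply h] at h1
  rw [← h1]
  refine C2.dzb_congr b ?_
  filter_upwards [near_two hz hj] with z hz
  have h2 := hf c c' _ (((L.K m).e c).map_target hz.1) hz.2
  rwa [((L.K m).e c).right_inv hz.1] at h2

theorem cov_dp {f : Sc (L.K m)} (hf : L.Num f) (hs : Sm _ f) : Cov _ (L.dp f) :=
  ⟨fun c c' y h h' b => by
    simp only [dp, if_pos (((L.K m).e c).map_source h), if_pos (((L.K m).e c').map_source h')]
    rw [L.dzb_num hf hs h h', L.div_chg h h', Finset.mul_sum, Finset.sum_div]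
    exact congrArg _ (Finset.sum_congr rfl fun j _ => by ring),
    fun _ _ hz => funext fun _ => if_neg hz⟩

end Lad

end Vale.Agent.P281Z.Lg
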