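import Vale.Agent.P281Z.Ha.Defs
import Vale.Agent.P281Z.Defs

/-!
# P281Z, block LG: logarithmic forms on the strata of a divisor with simple normal crossings

`Y m` is the disjoint union of the strata of dimension `m`. Sections of `K + D + F` on the union of
these strata are functions on the ambient set `V`, in the frames `β : B` (numerators).
-/

open scoped Manifold ContDiff Topology ComplexConjugate ComplexOrder
open Filter Set MeasureTheory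

noncomputable section

namespace Vale.Agent.P281Z.Lg

open Vale.Agent.P272.K Vale.Agent.P284.H608.K Vale.Agent.P281Z.Ha

scoped instance msM {n : ℕ} (V : Mf n) : MeasurableSpace V.X := borel V.X

scoped instance bsM {n : ℕ} (V : Mf n) : BorelSpace V.X := ⟨rfl⟩

/-- the hyperplane `z k = 0` -/
def ins {m : ℕ} (k : Fin (m + 1)) (v : Cm m) : Cm (m + 1) := k.insertNth 0 v

/-- the coordinate, or `1` -/
def zt {m : ℕ} (o : Option (Fin m)) (z : Cm m) : ℂ := o.elim 1 z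

/-- the sign of the residue -/
def sg {κ : Type} [LinearOrder κ] (I : Finset κ) (i : κ) : ℂ := (-1) ^ (I.filter (i < ·)).card

/-- the strata -/
structure Lad (κ V : Type) [Fintype κ] [LinearOrder κ] (n : ℕ) : Type 1 where
  Y : ∀ m, Mf m
  K : ∀ m, KA m (Y m).X
  B : Type
  U : B → Set V
  G : B → B → V → ℂ
  pt : ∀ {m}, (Y m).X → V
  lab : ∀ {m}, (Y m).X → Finset κ
  up : ∀ {m} (y : (Y m).X) {i : κ}, i ∈ lab y → (Y (m + 1)).X
  bs : ∀ {m}, (K m).I → B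
  co : ∀ {m}, (K m).I → κ → Option (Fin m)
  ε : ∀ {m}, (K m).I → ℂ
  sl : ∀ {m} (c : (K (m + 1)).I) {i : κ} {k : Fin (m + 1)}, co c i = some k → (K m).I
  atl : ∀ m (e : Chart m (Y m).X), e ∈ atlas (Cm m) (Y m).X ↔ ∃ c, (K m).e c = e
  self : ∀ β, ∀ x ∈ U β, G β β x = 1
  coc : ∀ β β' β'' x, x ∈ U β → x ∈ U β' → x ∈ U β'' → G β β'' x = G β β' x * G β' β'' x
  opn : ∀ m β, IsOpen {y : (Y m).X | pt y ∈ U β}
  mem : ∀ m (c : (K m).I), ∀ y ∈ ((K m).e c).source, pt y ∈ U (bs c)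
  hol : ∀ m (c : (K m).I) β β', ∀ z ∈ ((K m).e c).target, pt (((K m).e c).symm z) ∈ U β →
    pt (((K m).e c).symm z) ∈ U β' → AnalyticAt ℂ (fun z => G β β' (pt (((K m).e c).symm z))) z
  rel : ∀ m (c c' : (K m).I) y, y ∈ ((K m).e c).source → y ∈ ((K m).e c').source →
    ε c * (∏ l, zt (co c l) ((K m).e c y)) * ta (K m) c c' y =
      G (bs c) (bs c') (pt y) * (ε c' * ∏ l, zt (co c' l) ((K m).e c' y))
  eps : ∀ m (c : (K m).I), ε c * ε c = 1
  inj : ∀ m (c : (K m).I) l l' k, co c l = some k → co c l' = some k → l = l'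
  card : ∀ m (y : (Y m).X), (lab y).card + m = n
  up_pt : ∀ m (y : (Y m).X) i (h : i ∈ lab y), pt (up y h) = pt y
  up_lab : ∀ m (y : (Y m).X) i (h : i ∈ lab y), lab (up y h) = (lab y).erase i
  sl_bs : ∀ m (c : (K (m + 1)).I) i k (h : co c i = some k), bs (sl c h) = bs c
  sl_tg : ∀ m (c : (K (m + 1)).I) i k (h : co c i = some k),
    ((K m).e (sl c h)).target = ins k ⁻¹' ((K (m + 1)).e c).target
  sl_src : ∀ m (c : (K (m + 1)).I) i k (h : co c i = some k) y,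
    y ∈ ((K m).e (sl c h)).source ↔ ∃ hi : i ∈ lab y, up y hi ∈ ((K (m + 1)).e c).source
  sl_e : ∀ m (c : (K (m + 1)).I) i k (h : co c i = some k), ∀ y ∈ ((K m).e (sl c h)).source,
    ∀ hi : i ∈ lab y, (K (m + 1)).e c (up y hi) = ins k ((K m).e (sl c h) y)
  sl_φ : ∀ m (c : (K (m + 1)).I) i k (h : co c i = some k), ∀ v ∈ ((K m).e (sl c h)).target,
    (K m).φ (sl c h) v = (K (m + 1)).φ c (ins k v)
  sl_co : ∀ m (c : (K (m + 1)).I) i k (h : co c i = some k) l k',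
    co (sl c h) l = some k' ↔ co c l = some (k.succAbove k')
  sl_ε : ∀ m (c : (K (m + 1)).I) i k (h : co c i = some k), ∀ y ∈ ((K m).e (sl c h)).source,
    ε (sl c h) = sg ((lab y).erase i) i * (-1) ^ (k : ℕ) * ε c
  nb : ∀ m (c : (K (m + 1)).I) i, co c i = none → ∀ (y : (Y m).X) (hi : i ∈ lab y),
    up y hi ∉ ((K (m + 1)).e c).source
  bd : ∀ m (y : (Y (m + 1)).X) (y' : (Y m).X), pt y = pt y' →
    ∃ (y'' : (Y m).X) (i : κ) (hi : i ∈ lab y''), up y'' hi = y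
  uniq : ∀ m (c : (K m).I), ∀ y ∈ ((K m).e c).source, ∀ y' : (Y m).X, pt y = pt y' → y ≠ y' →
    ∏ l, zt (co c l) ((K m).e c y) = 0

namespace Lad

variable {κ V : Type} [Fintype κ] [LinearOrder κ] {n : ℕ} (L : Lad κ V n)

/-- the equation of the boundary -/
def pr {m : ℕ} (c : (L.K m).I) (z : Cm m) : ℂ := ∏ l, zt (L.co c l) z

/-- the union of the strata of dimension `m` -/
def sk (m : ℕ) : Set V := range (L.pt (m := m))

/-- the numerator on the strata of dimension `m` -/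
def nm (m : ℕ) (b : L.B → V → ℂ) : Sc (L.K m) :=
  fun c z => b (L.bs c) (L.pt (((L.K m).e c).symm z))

/-- the rule of the change of frames on `S` -/
def Chg (S : Set V) (b : L.B → V → ℂ) : Prop :=
  ∀ β β', ∀ x ∈ S, x ∈ L.U β → x ∈ L.U β' → b β x = L.G β β' x * b β' x

/-- a section of `K + D + F` on the strata of dimension `m` -/
structure Sec (m : ℕ) (b : L.B → V → ℂ) : Prop where
  hol : Hl (L.K m) (L.nm m b)
  chg : L.Chg (L.sk m) b

/-- numerators on `Y m` -/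
def Num {m : ℕ} (f : Sc (L.K m)) : Prop :=
  ∀ c c' y, y ∈ ((L.K m).e c).source → y ∈ ((L.K m).e c').source →
    f c ((L.K m).e c y) = L.G (L.bs c) (L.bs c') (L.pt y) * f c' ((L.K m).e c' y)

/-- `f` has the values `b` over `S` -/
def Val {m : ℕ} (f : Sc (L.K m)) (S : Set V) (b : L.B → V → ℂ) : Prop :=
  ∀ c, ∀ y ∈ ((L.K m).e c).source, L.pt y ∈ S → f c ((L.K m).e c y) = b (L.bs c) (L.pt y)

open Classical in
/-- the logarithmic form with the numerator `f` -/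
def fm {m : ℕ} (f : Sc (L.K m)) : Sc (L.K m) :=
  fun c z => if z ∈ ((L.K m).e c).target then L.ε c * f c z / L.pr c z else 0

/-- the numerator of the form `a` -/
def nu {m : ℕ} (a : Sc (L.K m)) : Sc (L.K m) := fun c z => L.ε c * L.pr c z * a c z

open Classical in
/-- `∂̄ f` divided by the equation of the boundary -/
def dp {m : ℕ} (f : Sc (L.K m)) : Vc (L.K m) :=
  fun c z b => if z ∈ ((L.K m).e c).target then L.ε c * dzb b (f c) z / L.pr c z else 0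

/-- the restriction of `g` from the stratum with the label `lab y - i`, read with the chart `c₁` -/
def rt {m : ℕ} (g : Vc (L.K (m + 1))) (c : (L.K m).I) (y : (L.Y m).X) {i : κ} (hi : i ∈ L.lab y)
    (c₁ : (L.K (m + 1)).I) : ℂ :=
  ∑ k, if h : L.co c₁ i = some k then ta (L.K m) c (L.sl c₁ h) y *
    (L.ε c₁ * L.ε (L.sl c₁ h) * g c₁ ((L.K (m + 1)).e c₁ (L.up y hi)) k) else 0

/-- the signed sum of the restrictions at the point `y` -/
def rp {m : ℕ} (g : Vc (L.K (m + 1))) (c : (L.K m).I) (y : (L.Y m).X) : ℂ :=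
  ∑ i, if hi : i ∈ L.lab y then L.rt g c y hi ((L.K (m + 1)).ix (L.up y hi)) else 0

open Classical in
/-- the signed sum of the restrictions -/
def rs {m : ℕ} (g : Vc (L.K (m + 1))) : Sc (L.K m) :=
  fun c z => if z ∈ ((L.K m).e c).target then L.rp g c (((L.K m).e c).symm z) else 0

/-- a hypersurface `s = 0` which is transversal to the strata -/
structure Hy where
  T : ∀ m, Twi (L.K m)
  γ : L.B → L.B → V → ℂ
  s : L.B → V → ℂ
  hc : ∀ {m}, (L.K m).I → Option (Fin m)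
  self : ∀ β, ∀ x ∈ L.U β, γ β β x = 1
  coc : ∀ β β' β'' x, x ∈ L.U β → x ∈ L.U β' → x ∈ L.U β'' → γ β β'' x = γ β β' x * γ β' β'' x
  chg : ∀ β β' x, x ∈ L.U β → x ∈ L.U β' → s β x = γ β β' x * s β' x
  hol : ∀ m (c : (L.K m).I) β β', ∀ z ∈ ((L.K m).e c).target,
    L.pt (((L.K m).e c).symm z) ∈ L.U β → L.pt (((L.K m).e c).symm z) ∈ L.U β' →
    AnalyticAt ℂ (fun z => γ β β' (L.pt (((L.K m).e c).symm z))) z
  γ_eq : ∀ m (c c' : (L.K m).I), ∀ y ∈ ((L.K m).e c).source, y ∈ ((L.K m).e c').source →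
    (T m).γ c c' ((L.K m).e c y) = γ (L.bs c) (L.bs c') (L.pt y)
  σ_eq : ∀ m (c : (L.K m).I), ∀ y ∈ ((L.K m).e c).source,
    (T m).σ c ((L.K m).e c y) = s (L.bs c) (L.pt y)
  on : ∀ m (c : (L.K m).I) k, hc c = some k → (∀ l, L.co c l ≠ some k) ∧
    ∀ z ∈ ((L.K m).e c).target, (T m).σ c z = z k
  out : ∀ m (c : (L.K m).I), hc c = none → ∀ z ∈ ((L.K m).e c).target, (T m).σ c z ≠ 0
  sl_τ : ∀ m (c : (L.K (m + 1)).I) i k (h : L.co c i = some k),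
    ∀ v ∈ ((L.K m).e (L.sl c h)).target, (T m).τ (L.sl c h) v = (T (m + 1)).τ c (ins k v)

variable {L}

/-- the strata, with the twisted bundle -/
@[reducible] def Hy.lad (H : L.Hy) : Lad κ V n where
  Y := L.Y
  K m := (H.T m).ka
  B := L.B
  U := L.U
  G β β' x := L.G β β' x * H.γ β β' x
  pt := L.pt
  lab := L.lab
  up := L.up
  bs := L.bs
  co := L.co
  ε := L.ε
  sl := L.sl
  atl := L.atl
  self β x h := by rw [L.self β x h, H.self β x h, one_mul]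
  coc β β' β'' x h h' h'' := by
    rw [L.coc β β' β'' x h h' h'', H.coc β β' β'' x h h' h'']
    ring
  opn := L.opn
  mem := L.mem
  hol m c β β' z h h' h'' := (L.hol m c β β' z h h' h'').mul (H.hol m c β β' z h h' h'')
  rel m c c' y h h' := by
    have h1 := L.rel m c c' y h h'
    have h2 := H.γ_eq m c c' y h h'
    simp only [ta] at h1 ⊢
    rw [h2]
    linear_combination H.γ (L.bs c) (L.bs c') (L.pt y) * h1
  eps := L.eps
  inj := L.inj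
  card := L.card
  up_pt := L.up_pt
  up_lab := L.up_lab
  sl_bs := L.sl_bs
  sl_tg := L.sl_tg
  sl_src := L.sl_src
  sl_e := L.sl_e
  sl_φ m c i k h v hv := by
    change (L.K m).φ _ v + (H.T m).τ _ v = (L.K (m + 1)).φ c _ + (H.T (m + 1)).τ c _
    rw [L.sl_φ m c i k h v hv, H.sl_τ m c i k h v hv]
  sl_co := L.sl_co
  sl_ε := L.sl_ε
  nb := L.nb
  bd := L.bd
  uniq := L.uniq

/-- the hypersurface -/
def Hy.Z (H : L.Hy) : Set V := {x | ∃ β, x ∈ L.U β ∧ H.s β x = 0}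

/-- `u` is a section on the hypersurface in the strata of dimension `m` -/
structure Hy.On (H : L.Hy) (m : ℕ) (u : L.B → V → ℂ) : Prop where
  chg : H.lad.Chg (H.Z ∩ L.sk m) u
  ext : ∀ c, ∀ z ∈ ((L.K m).e c).target, (H.T m).σ c z = 0 → ∃ q : Cm m → ℂ, AnalyticAt ℂ q z ∧
    ∀ᶠ z' in 𝓝 z, (H.T m).σ c z' = 0 → L.nm m u c z' = q z'

/-- `b` and `b'` agree on `S` -/
def Agr (L : Lad κ V n) (S : Set V) (b b' : L.B → V → ℂ) : Prop :=
  ∀ β, ∀ x ∈ S, x ∈ L.U β → b β x = b' β x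

end Lad

/-- A statement for all systems of strata. -/
def ForL (P : ∀ (κ V : Type) [Fintype κ] [LinearOrder κ] (n : ℕ), Lad κ V n → Prop) : Prop :=
  ∀ (κ V : Type) [Fintype κ] [LinearOrder κ] (n : ℕ) (L : Lad κ V n), P κ V n L

section

variable {κ V : Type} [Fintype κ] [LinearOrder κ] {n : ℕ} (L : Lad κ V n)

/-- (RS) the restriction maps -/
structure Rs : Prop where
  rt_eq : ∀ m (g : Vc (L.K (m + 1))), Vec _ g → ∀ c y i (hi : i ∈ L.lab y) c₁ c₂,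
    L.up y hi ∈ ((L.K (m + 1)).e c₁).source → L.up y hi ∈ ((L.K (m + 1)).e c₂).source →
    y ∈ ((L.K m).e c).source → L.rt g c y hi c₁ = L.rt g c y hi c₂
  top : ∀ m (g : Vc (L.K (m + 1))), Vec _ g → Top _ (L.rs g)
  sm : ∀ m (g : Vc (L.K (m + 1))), Vec _ g → Sm _ g → Sm _ (L.rs g)
  hl : ∀ m (g : Vc (L.K (m + 1))), Vec _ g → Hl _ g → Hl _ (L.rs g)
  add : ∀ m (g g' : Vc (L.K (m + 1))), L.rs (g + g') = L.rs g + L.rs g'
  smul : ∀ m (a : ℂ) (g : Vc (L.K (m + 1))), L.rs (a • g) = a • L.rs g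
  tw : ∀ m (H : L.Hy) (g : Vc (L.K (m + 1))), Vec _ g →
    H.lad.rs ((H.T (m + 1)).mul g) = (H.T m).mul (L.rs g)
  lab : ∀ m (y : (L.Y m).X), ∀ᶠ y' in 𝓝 y, L.lab y' = L.lab y

/-- (GL) sections on the union of the strata -/
structure Gl : Prop where
  num : ∀ m b, L.Sec m b → L.Num (L.nm m b)
  bdry : ∀ m (c : (L.K (m + 1)).I), ∀ y ∈ ((L.K (m + 1)).e c).source,
    L.pr c ((L.K (m + 1)).e c y) = 0 ↔ L.pt y ∈ L.sk m
  mono : ∀ m, m < n → L.sk m ⊆ L.sk (m + 1)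
  down : ∀ m b, m < n → L.Sec (m + 1) b → L.Sec m b
  congr : ∀ m b b', L.Agr (L.sk m) b b' → L.Sec m b → L.Sec m b'
  nu_num : ∀ m (a : Sc (L.K m)), Top _ a → L.Num (L.nu a)
  glue : ∀ m (f : Sc (L.K (m + 1))) b, L.Num f → Hl _ f → L.Chg (L.sk m) b → L.Val f (L.sk m) b →
    ∃ b', L.Sec (m + 1) b' ∧ L.Val f univ b' ∧ L.Agr (L.sk m) b' b
  glue0 : ∀ m (a : Sc (L.K m)), H0 _ a → ∃ b, L.Sec m b ∧ L.Val (L.nu a) univ b
  fm_nu : ∀ m (a a' : Sc (L.K m)) b, Top _ a → L.Val (L.nu a) univ b →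
    pS _ (L.fm (L.nm m b)) a' = pS _ a a'
  int : ∀ m (f a : Sc (L.K m)), L.Num f → Sm _ f → Top _ a → Sm _ a →
    Integrable (dS _ (L.fm f) a) (L.K m).μ
  ae : ∀ m, ∀ᵐ y ∂(L.K m).μ, ∀ c, y ∈ ((L.K m).e c).source → L.pr c ((L.K m).e c y) ≠ 0

end

/-- (RS) -/
def StRs : Prop := ForL fun _ _ _ _ _ L => Rs L

/-- (GL) -/
def StGl : Prop := ForL fun _ _ _ _ _ L => Gl L

/-- (CP) the formula of Cauchy and Pompeiu with parameters -/
def StCp : Prop := ∀ (m : ℕ) (κ : Type) [Fintype κ] (o : κ → Option (Fin (m + 1))),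
  (∀ l l' k, o l = some k → o l' = some k → l = l') → ∀ ψ : Cm (m + 1) → ℂ, ContDiff ℝ ∞ ψ →
  HasCompactSupport ψ → ∀ k : Fin (m + 1),
    Integrable (fun z => ψ z / ∏ l, zt (o l) z) ∧
    ((∀ l, o l ≠ some k) → ∫ z, dzb k ψ z / ∏ l, zt (o l) z = 0) ∧
    ∀ [DecidableEq κ] i, o i = some k → ∫ z, dzb k ψ z / ∏ l, zt (o l) z =
      -Real.pi * ∫ v, ψ (ins k v) / ∏ l ∈ Finset.univ.erase i, zt (o l) (ins k v)

/-- (RES) the residue formula, for smooth `g` with `D' g = 0` -/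
def StRes : Prop := ForL fun _ _ _ _ _ L => ∀ m (f : Sc (L.K (m + 1))) b (g : Vc (L.K (m + 1))),
  L.Num f → Sm _ f → L.Num (L.nm m b) → Sm _ (L.nm m b) → L.Val f (L.sk m) b → Vec _ g → Sm _ g →
  Dv _ g → pV _ (L.dp f) g = -Real.pi * pS _ (L.fm (L.nm m b)) (L.rs g)

/-- (EXL) holomorphic functions on a union of coordinate hyperplanes extend; division -/
def StExl : Prop := ∀ (m : ℕ) (S : Finset (Fin m)) (a : Cm m), (∀ k ∈ S, a k = 0) →
  (∀ b : Cm m → ℂ, (∀ k ∈ S, ∃ q : Cm m → ℂ, AnalyticAt ℂ q a ∧ ∀ᶠ z in 𝓝 a, z k = 0 → b z = q z) →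
    ∃ q : Cm m → ℂ, AnalyticAt ℂ q a ∧ ∀ᶠ z in 𝓝 a, ∀ k ∈ S, z k = 0 → b z = q z) ∧
  ∀ q : Cm m → ℂ, AnalyticAt ℂ q a → (∀ᶠ z in 𝓝 a, ∀ k ∈ S, z k = 0 → q z = 0) →
    ∃ q' : Cm m → ℂ, AnalyticAt ℂ q' a ∧ ∀ᶠ z in 𝓝 a, q z = (∏ k ∈ S, z k) * q' z

/-- (LIFT) a smooth lift and its class -/
def StLift : Prop := ForL fun _ _ _ _ _ L => ∀ (H : L.Hy) m b u, H.lad.Sec m b →
  H.On (m + 1) u → L.Agr (H.Z ∩ L.sk m) b u → ∃ (f : Sc (L.K (m + 1))) (x : Vc (L.K (m + 1))),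
    H.lad.Num f ∧ Sm _ f ∧ L.Val f (L.sk m) b ∧ L.Val f H.Z u ∧ Cl _ x ∧
      ∀ c, ∀ z ∈ ((L.K (m + 1)).e c).target, ∀ j,
        dzb j (f c) z = L.ε c * L.pr c z * (H.T (m + 1)).σ c z * x c z j

/-- (B1) the obstruction to the extension -/
def StB1 : Prop := ForL fun _ _ _ _ _ L => ∀ m b,
  (L.Sec (m + 1) b → L.Sec m b → ∀ g : Vc (L.K (m + 1)), Vec _ g → Sm _ g → Dv _ g →
    pS _ (L.fm (L.nm m b)) (L.rs g) = 0) ∧
  (Psd (L.K (m + 1)) → L.Sec m b →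
    (∀ g, Gam (L.K (m + 1)) g → pS _ (L.fm (L.nm m b)) (L.rs g) = 0) →
    ∃ b', L.Sec (m + 1) b' ∧ L.Agr (L.sk m) b' b)

/-- (B2) canonical lifts -/
def StB2 : Prop := ForL fun _ _ _ _ n L => (∀ m, Psd (L.K m)) → ∀ m ≤ n, ∀ a : Sc (L.K m),
  H0 _ a → ((∀ g, Gam (L.K (m + 1)) g → pS _ a (L.rs g) = 0) →
    ∃ b, L.Sec n b ∧ L.Val (L.nu a) univ b ∧ ∀ m', m < m' → m' ≤ n → ∀ a' : Sc (L.K m'),
      H0 _ a' → pS _ (L.fm (L.nm m' b)) a' = 0) ∧
  ∃ g b, Gam (L.K (m + 1)) g ∧ L.Sec n b ∧ L.Val (L.nu (a - L.rs g)) univ b ∧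
    ∀ g', Gam (L.K (m + 1)) g' → pS _ (a - L.rs g) (L.rs g') = 0

/-- (B3) extension from the hypersurface -/
def StB3 : Prop := ForL fun _ _ _ _ _ L => ∀ H : L.Hy, (∀ m, Psd (L.K m)) → (∀ m, (H.T m).Dom) →
  ∀ u, (∀ m, H.On m u) → ∀ m, ∃ b, H.lad.Sec m b ∧ L.Agr (H.Z ∩ L.sk m) b u

end Vale.Agent.P281Z.Lg
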