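import Vale.Agent.P281Z.Lg.Defs

/-!
# P281Z, block LG: the signs of the iterated residues
-/

open Finset Function

noncomputable section

namespace Vale.Agent.P281Z.Lg

variable {n m : ℕ} {κ : Type} [LinearOrder κ]

/-- the sign of a pair -/
def sn (a b : Fin n) : ℂ := if a < b then 1 else -1

/-- the sign of a pair of options -/
def so (a b : Option (Fin n)) : ℂ := a.elim 1 fun a => b.elim 1 fun b => sn a b

/-- the sign of the numbering which starts with the labels in `I` and ends with `j` -/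
def ep (la : κ → Option (Fin n)) (I : Finset κ) (j : Fin m → Fin n) : ℂ :=
  (∏ l ∈ I, ∏ l' ∈ I.filter (l < ·), so (la l) (la l')) *
    (∏ l ∈ I, ∏ k, so (la l) (some (j k))) * ∏ k, ∏ k' ∈ Ioi k, sn (j k) (j k')

theorem sn_sq (a b : Fin n) : sn a b * sn a b = 1 := by
  unfold sn
  split_ifs <;> simp

theorem so_sq (a b : Option (Fin n)) : so a b * so a b = 1 := by
  cases a <;> cases b <;> simp [so, sn_sq]

theorem sn_swap {a b : Fin n} (h : a ≠ b) : sn a b = -sn b a := by
  unfold sn
  rcases lt_or_gt_of_ne h with k | k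
  · rw [if_pos k, if_neg k.not_gt, neg_neg]
  · rw [if_neg k.not_gt, if_pos k]

theorem ep_sq (la : κ → Option (Fin n)) (I : Finset κ) (j : Fin m → Fin n) :
    ep la I j * ep la I j = 1 := by
  have h : ∀ a b c : ℂ, a * a = 1 → b * b = 1 → c * c = 1 → a * b * c * (a * b * c) = 1 :=
    fun a b c h1 h2 h3 => by linear_combination b * b * (c * c) * h1 + c * c * h2 + h3
  refine h _ _ _ ?_ ?_ ?_ <;> simp only [← prod_mul_distrib, so_sq, sn_sq, prod_const_one]

theorem prod_Ioi_sl (k : Fin (m + 1)) (f : Fin (m + 1) → Fin (m + 1) → ℂ) :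
    ∏ a, ∏ b ∈ Ioi a, f a b = (∏ b : Fin m, if k.succAbove b < k then f (k.succAbove b) k else
      f k (k.succAbove b)) * ∏ a : Fin m, ∏ b ∈ Ioi a, f (k.succAbove a) (k.succAbove b) := by
  have h : ∀ (p : ℕ) (a : Fin p) (g : Fin p → ℂ), ∏ b ∈ Ioi a, g b = ∏ b, if a < b then g b else 1 :=
    fun p a g => by rw [← prod_filter]; exact prod_congr (by ext; simp) fun _ _ => rfl
  simp only [h]
  rw [Fin.prod_univ_succAbove _ k, Fin.prod_univ_succAbove _ k, if_neg (lt_irrefl k), one_mul]
  simp only [fun a : Fin m => Fin.prod_univ_succAbove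
    (fun b => if k.succAbove a < b then f (k.succAbove a) b else 1) k,
    Fin.succAbove_lt_succAbove_iff, prod_mul_distrib]
  rw [← mul_assoc, ← prod_mul_distrib]
  refine congrArg (· * _) (prod_congr rfl fun b _ => ?_)
  rcases lt_or_gt_of_ne (Fin.succAbove_ne k b) with h1 | h1
  · rw [if_neg h1.not_gt, if_pos h1, if_pos h1, one_mul]
  · rw [if_pos h1, if_neg h1.not_gt, if_neg h1.not_gt, mul_one]

theorem prod_sg (k : Fin (m + 1)) :
    (∏ b : Fin m, if k.succAbove b < k then (-1 : ℂ) else 1) = (-1) ^ (k : ℕ) := by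
  have h : (∏ b : Fin (m + 1), if b < k then (-1 : ℂ) else 1) = (-1) ^ (k : ℕ) := by
    rw [← prod_filter, prod_const, show filter (· < k) univ = Iio k by ext; simp, Fin.card_Iio]
  rw [← h, Fin.prod_univ_succAbove _ k, if_neg (lt_irrefl k), one_mul]

/-- the rule for a slice -/
theorem ep_sl {la : κ → Option (Fin n)} {I : Finset κ} {j : Fin (m + 1) → Fin n} {i : κ}
    {k : Fin (m + 1)} (hi : la i = some (j k)) (hj : Injective j) (h0 : ∀ l ∈ I, la l ≠ none)
    (h1 : ∀ l ∈ I, ∀ k', la l ≠ some (j k')) :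
    ep la (insert i I) (fun k' => j (k.succAbove k')) = sg I i * (-1) ^ (k : ℕ) * ep la I j := by
  have hI : i ∉ I := fun h => h1 i h k hi
  have e1 : ∀ l ∈ I, ∏ l' ∈ (insert i I).filter (l < ·), so (la l) (la l') =
      (if l < i then so (la l) (la i) else 1) * ∏ l' ∈ I.filter (l < ·), so (la l) (la l') := by
    intro l _
    rw [filter_insert]
    split_ifs
    · rw [prod_insert fun h => hI (mem_filter.1 h).1]
    · rw [one_mul]
  have e2 : ∏ l' ∈ (insert i I).filter (i < ·), so (la i) (la l') =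
      ∏ l ∈ I, if i < l then so (la i) (la l) else 1 := by
    rw [filter_insert, if_neg (lt_irrefl i), prod_filter]
  have e3 : (∏ l ∈ I, if i < l then so (la i) (la l) else 1) *
      (∏ l ∈ I, if l < i then so (la l) (la i) else 1) =
      sg I i * ∏ l ∈ I, so (la l) (some (j k)) := by
    rw [sg, ← prod_const, prod_filter, ← prod_mul_distrib, ← prod_mul_distrib]
    refine prod_congr rfl fun l hl => ?_
    obtain ⟨a, ha⟩ := Option.ne_none_iff_exists'.1 (h0 l hl)
    have h2 : j k ≠ a := fun h => h1 l hl k (h ▸ ha)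
    rcases lt_or_gt_of_ne (show i ≠ l from fun h => hI (h ▸ hl)) with h3 | h3
    · simp [h3, h3.not_gt, hi, ha, so, sn_swap h2]
    · simp [h3, h3.not_gt, hi]
  have e4 : (∏ b : Fin m, if k.succAbove b < k then sn (j (k.succAbove b)) (j k) else
      sn (j k) (j (k.succAbove b))) =
      (-1) ^ (k : ℕ) * ∏ b : Fin m, so (la i) (some (j (k.succAbove b))) := by
    rw [← prod_sg, ← prod_mul_distrib]
    refine prod_congr rfl fun b _ => ?_
    split_ifs
    · simp [hi, so, sn_swap (hj.ne (Fin.succAbove_ne k b))]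
    · simp [hi, so]
  have e5 : ((-1 : ℂ) ^ (k : ℕ)) * (-1) ^ (k : ℕ) = 1 := by rw [← mul_pow]; simp
  rw [ep, ep, prod_insert hI, prod_insert hI, prod_congr rfl e1, e2, prod_mul_distrib,
    ← mul_assoc (∏ l ∈ I, if i < l then _ else _), e3,
    prod_Ioi_sl k fun a b => sn (j a) (j b), e4]
  simp only [fun l => Fin.prod_univ_succAbove (fun k' => so (la l) (some (j k'))) k,
    prod_mul_distrib]
  linear_combination -(sg I i * (∏ l ∈ I, so (la l) (some (j k))) *
    (∏ l ∈ I, ∏ l' ∈ I.filter (l < ·), so (la l) (la l')) *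
    (∏ b : Fin m, so (la i) (some (j (k.succAbove b)))) *
    (∏ l ∈ I, ∏ b : Fin m, so (la l) (some (j (k.succAbove b)))) *
    ∏ a : Fin m, ∏ b ∈ Ioi a, sn (j (k.succAbove a)) (j (k.succAbove b))) * e5

/-- the sign of a permutation -/
theorem ep_top (la : κ → Option (Fin n)) (σ : Equiv.Perm (Fin n)) :
    ep la ∅ σ = ((Equiv.Perm.sign σ : ℤ) : ℂ) := by
  rw [ep, prod_empty, prod_empty, one_mul, one_mul, Equiv.Perm.sign_eq_prod_prod_Ioi]
  push_cast
  refine prod_congr rfl fun a _ => prod_congr rfl fun b _ => ?_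
  unfold sn
  split_ifs <;> simp

end Vale.Agent.P281Z.Lg
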