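import Vale.Agent.P281Z.Lg.Ep

/-!
# P281Z, block LG: the determinant of the change of coordinates on a stratum
-/

open Finset Function Matrix

noncomputable section

namespace Vale.Agent.P281Z.Lg

variable {n : ℕ} {κ : Type} [LinearOrder κ]

theorem sg_sq (I : Finset κ) (i : κ) : sg I i * sg I i = 1 := by
  rw [sg, ← mul_pow]
  simp

theorem rng_cons {m : ℕ} {la : κ → Option (Fin n)} (inj : ∀ l l' k, la l = some k → la l' = some k →
    l = l') {I : Finset κ} {i : κ} (hi : i ∉ I) {a : Fin n} (ha : la i = some a) {j : Fin m → Fin n}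
    (hj : Injective j) (h : ∀ b, b ∈ Set.range j ↔ ∀ l ∈ insert i I, la l ≠ some b) :
    Injective (Fin.cons a j : Fin (m + 1) → Fin n) ∧
      ∀ b, b ∈ Set.range (Fin.cons a j : Fin (m + 1) → Fin n) ↔ ∀ l ∈ I, la l ≠ some b := by
  refine ⟨Fin.cons_injective_iff.2 ⟨fun k => (h a).1 k i (mem_insert_self _ _) ha, hj⟩, fun b => ?_⟩
  rw [Fin.range_cons, Set.mem_insert_iff, h, forall_mem_insert]
  refine ⟨?_, fun k => ?_⟩
  · rintro (rfl | k) l hl
    · exact fun k => hi (inj _ _ _ k ha ▸ hl)
    · exact k.2 l hl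
  · by_cases hb : b = a
    · exact .inl hb
    · exact .inr ⟨fun k' => hb (Option.some.inj (k'.symm.trans ha)), k⟩

/-- the determinant of a matrix which preserves the coordinate hyperplanes with the labels in `I` -/
theorem det_ep {la la' : κ → Option (Fin n)}
    (inj : ∀ l l' k, la l = some k → la l' = some k → l = l')
    (inj' : ∀ l l' k, la' l = some k → la' l' = some k → l = l') (M : Matrix (Fin n) (Fin n) ℂ)
    (u : κ → ℂ) (I : Finset κ) (h : ∀ l ∈ I, ∃ a a', la l = some a ∧ la' l = some a' ∧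
      ∀ b, M a' b = if b = a then u l else 0) {m : ℕ} {j j' : Fin m → Fin n} (hj : Injective j)
    (hj' : Injective j') (r : ∀ b, b ∈ Set.range j ↔ ∀ l ∈ I, la l ≠ some b)
    (r' : ∀ b, b ∈ Set.range j' ↔ ∀ l ∈ I, la' l ≠ some b) :
    ep la I j * ep la' I j' * M.det = (∏ l ∈ I, u l) * (M.submatrix j' j).det := by
  induction I using Finset.induction_on generalizing m with
  | empty =>
    have b : Bijective j := ⟨hj, fun b => (r b).2 (by simp)⟩
    have b' : Bijective j' := ⟨hj', fun b => (r' b).2 (by simp)⟩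
    obtain rfl : m = n := by simpa using Fintype.card_of_bijective b
    have h1 := ep_top la (Equiv.ofBijective j b)
    have h2 := ep_top la' (Equiv.ofBijective j' b')
    have h3 := det_permute (Equiv.ofBijective j' b') (M.submatrix id j)
    have h4 := det_permute' (Equiv.ofBijective j b) M
    simp only [Equiv.coe_ofBijective, submatrix_submatrix, id_comp, comp_id] at h1 h2 h3 h4
    rw [h1, h2, h3, h4, prod_empty]
    ring
  | insert i I hi ih =>
    obtain ⟨a, a', ha, ha', hM⟩ := h i (mem_insert_self _ _)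
    obtain ⟨k1, k2⟩ := rng_cons inj hi ha hj r
    obtain ⟨k3, k4⟩ := rng_cons inj' hi ha' hj' r'
    have h0 := fun l (hl : l ∈ I) => h l (mem_insert_of_mem hl)
    have e1 := ep_sl (I := I) (k := 0) (j := Fin.cons a j) ha k1
      (fun l hl k => by obtain ⟨_, _, k', _⟩ := h0 l hl; simp [k] at k')
      fun l hl k => (k2 _).1 ⟨k, rfl⟩ l hl
    have e2 := ep_sl (I := I) (k := 0) (j := Fin.cons a' j') ha' k3
      (fun l hl k => by obtain ⟨_, _, _, k', _⟩ := h0 l hl; simp [k] at k')
      fun l hl k => (k4 _).1 ⟨k, rfl⟩ l hl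
    have e3 := ih h0 k1 k3 k2 k4
    have e4 : (M.submatrix (Fin.cons a' j' : Fin (m + 1) → Fin n)
        (Fin.cons a j : Fin (m + 1) → Fin n)).det = u i * (M.submatrix j' j).det := by
      rw [det_succ_row_zero, Fin.sum_univ_succ, sum_eq_zero fun k _ => ?_]
      · simp [hM, submatrix_submatrix]
      · have : j k ≠ a := fun e => (r a).1 ⟨k, e⟩ i (mem_insert_self _ _) ha
        simp [hM, this]
    simp only [Fin.succAbove_zero, Fin.cons_succ, Fin.val_zero, pow_zero, mul_one] at e1 e2
    rw [show j = fun k => j k from rfl, show j' = fun k => j' k from rfl, e1, e2, prod_insert hi]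
    rw [e4] at e3
    linear_combination (sg I i * sg I i) * e3 + (∏ l ∈ I, u l) * (u i * (M.submatrix j' j).det) *
      sg_sq I i

end Vale.Agent.P281Z.Lg
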